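import Crest.Agent.N233.Js.Fp

/-!
# Row 233, block Js: the cusps of the Borromean rings group are malnormal

`Bor = ⟨m₀, m₁, m₂ | [lᵢ, mᵢ]⟩` embeds in an HNN extension of `ℤ² ∗ ℤ²` along free groups.
-/

set_option autoImplicit false
set_option linter.unusedVariables false
set_option linter.unusedSectionVars false

namespace Crest.Agent.N233.Js

open Crest.Agent.R179.BSL703 MulAction Monoid Multiplicative

/-- `ℤ²` -/
abbrev Z2 : Type := Multiplicative ℤ × Multiplicative ℤ

/-- the torus group on two commuting elements -/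
def t2 {K : Type*} [Group K] {m l : K} (h : Commute m l) : Z2 →* K :=
  (zpowersHom K m).noncommCoprod (zpowersHom K l) (fun _ _ => h.zpow_zpow _ _)

section t2

variable {K : Type*} [Group K] {m l : K} (h : Commute m l)

theorem t2_apply (ζ : Z2) : t2 h ζ = m ^ toAdd ζ.1 * l ^ toAdd ζ.2 := rfl

theorem t2_mk (a b : ℤ) : t2 h (ofAdd a, ofAdd b) = m ^ a * l ^ b := rfl

theorem t2_fst : t2 h (ofAdd 1, 1) = m := by simp [t2_apply]

theorem t2_snd : t2 h (1, ofAdd 1) = l := by simp [t2_apply]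

theorem mem_t2 {x : K} : x ∈ (t2 h).range ↔ ∃ a b : ℤ, x = m ^ a * l ^ b :=
  ⟨fun ⟨ζ, e⟩ => ⟨_, _, e.symm⟩, fun ⟨a, b, e⟩ => ⟨(ofAdd a, ofAdd b), e.symm⟩⟩

theorem map_t2 {K' : Type*} [Group K'] (f : K →* K') (ζ : Z2) : f (t2 h ζ) = t2 (h.map f) ζ := by
  simp [t2_apply]

theorem t2_inj_iff : Function.Injective (t2 h) ↔ Ind m l := by
  rw [injective_iff_map_eq_one]
  constructor
  · intro hi
    refine ⟨h, fun a b e => ?_⟩
    have := hi (ofAdd a, ofAdd (-b)) (by rw [t2_mk, e, ← zpow_add]; simp)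
    simpa using this
  · rintro hi ⟨a, b⟩ e
    rw [t2_apply, mul_eq_one_iff_eq_inv, ← zpow_neg] at e
    obtain ⟨h1, h2⟩ := hi.2 _ _ e
    exact Prod.ext (by simpa using h1) (by simpa using h2)

end t2

open Classical in
/-- a graph of groups given by pairs of injections of one edge group `C` -/
noncomputable def GG.ofHom {P : Type*} [Group P] {E : Type*} (bar : E → E)
    (h1 : ∀ e, bar (bar e) = e) (h2 : ∀ e, bar e ≠ e) {C : Type*} [Group C] (i : E → C →* P)
    (hi : ∀ e, Function.Injective (i e)) : GG P E where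
  bar := bar
  bar_bar := h1
  bar_ne := h2
  A e := (i e).range
  φ e a := i (bar e) (Function.invFun (i e) a)
  φ_mem e a _ := ⟨_, rfl⟩
  φ_mul e := by
    rintro _ ⟨a, rfl⟩ _ ⟨b, rfl⟩
    rw [← map_mul, ← map_mul, Function.leftInverse_invFun (hi e), Function.leftInverse_invFun (hi e),
      Function.leftInverse_invFun (hi e)]
  φ_φ e := by
    rintro _ ⟨a, rfl⟩
    rw [Function.leftInverse_invFun (hi e), Function.leftInverse_invFun (hi _), h1]

theorem GG.ofHom_φ {P : Type*} [Group P] {E : Type*} (bar : E → E)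
    (h1 : ∀ e, bar (bar e) = e) (h2 : ∀ e, bar e ≠ e) {C : Type*} [Group C] (i : E → C →* P)
    (hi : ∀ e, Function.Injective (i e)) (e : E) (c : C) :
    (GG.ofHom bar h1 h2 i hi).φ e (i e c) = i (bar e) c :=
  congrArg (i (bar e)) (Function.leftInverse_invFun (hi e) c)

namespace Br

/-- `ℤ² ∗ ℤ²` -/
abbrev X : Type := Coprod Z2 Z2

/-- generators -/
def xa : X := Coprod.inl (ofAdd 1, 1)
/-- generators -/
def xl : X := Coprod.inl (1, ofAdd 1)
/-- generators -/
def xb : X := Coprod.inr (ofAdd 1, 1)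
/-- generators -/
def xm : X := Coprod.inr (1, ofAdd 1)

theorem c_al : Commute xa xl := (Commute.all _ _).map (Coprod.inl : Z2 →* X)
theorem c_bm : Commute xb xm := (Commute.all _ _).map (Coprod.inr : Z2 →* X)

theorem z2_eq (ζ : Z2) : ζ = (ofAdd 1, 1) ^ toAdd ζ.1 * (1, ofAdd 1) ^ toAdd ζ.2 := by
  obtain ⟨a, b⟩ := ζ
  simp [← ofAdd_zsmul]

theorem inl_eq (ζ : Z2) : (Coprod.inl ζ : X) = xa ^ toAdd ζ.1 * xl ^ toAdd ζ.2 := by
  conv_lhs => rw [z2_eq ζ, map_mul, map_zpow, map_zpow]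
  rfl

theorem inr_eq (ζ : Z2) : (Coprod.inr ζ : X) = xb ^ toAdd ζ.1 * xm ^ toAdd ζ.2 := by
  conv_lhs => rw [z2_eq ζ, map_mul, map_zpow, map_zpow]
  rfl

/-- the two free subgroups -/
def ι (e : Bool) : FreeGroup Bool →* X :=
  FreeGroup.lift fun c => cond e (cond c xb (xa * xm)) (cond c (xb * xl⁻¹) xa)

/-- the common left inverse -/
def q : X →* FreeGroup Bool :=
  Coprod.lift (t2 (Commute.one_right (FreeGroup.of false))) (t2 (Commute.one_right (FreeGroup.of true)))

theorem q_a : q xa = FreeGroup.of false := by simp [q, xa, t2_apply]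
theorem q_l : q xl = 1 := by simp [q, xl, t2_apply]
theorem q_b : q xb = FreeGroup.of true := by simp [q, xb, t2_apply]
theorem q_m : q xm = 1 := by simp [q, xm, t2_apply]

theorem q_ι (e : Bool) (c : FreeGroup Bool) : q (ι e c) = c := by
  have : q.comp (ι e) = MonoidHom.id _ := by
    ext c
    cases e <;> cases c <;> simp [ι, q_a, q_l, q_b, q_m]
  exact DFunLike.congr_fun this c

theorem ι_inj (e : Bool) : Function.Injective (ι e) := fun a b h => by rw [← q_ι e a, h, q_ι]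

/-- the HNN datum -/
noncomputable def D : GG X Bool := GG.ofHom not Bool.not_not Bool.not_ne_self ι ι_inj

theorem eq_of_mem {e : Bool} {w : X} (h : w ∈ D.A e) : w = ι e (q w) := by
  obtain ⟨c, rfl⟩ := h
  rw [q_ι]

theorem φ_ι (e : Bool) (c : FreeGroup Bool) : D.φ e (ι e c) = ι (!e) c :=
  GG.ofHom_φ not Bool.not_not Bool.not_ne_self ι ι_inj e c

/-- abelianisation -/
def ab : X →* Z2 × Z2 := Coprod.toProd

theorem ab_conj (p w : X) : ab (p⁻¹ * w * p) = ab w := by
  rw [map_mul, map_mul, map_inv, mul_comm, mul_inv_cancel_left]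

theorem ab_inl (ζ : Z2) : ab (Coprod.inl ζ) = (ζ, 1) := rfl
theorem ab_inr (ζ : Z2) : ab (Coprod.inr ζ) = (1, ζ) := rfl

theorem ab_am (k : ℤ) : ab ((xa * xm) ^ k) = ((ofAdd k, 1), (1, ofAdd k)) := by
  rw [map_zpow, map_mul, xa, xm, ab_inl, ab_inr]
  simp [← ofAdd_zsmul]

theorem ab_a (k : ℤ) : ab (xa ^ k) = ((ofAdd k, 1), 1) := by
  rw [map_zpow, xa, ab_inl]
  simp [← ofAdd_zsmul]

theorem ab_ι0 (c : FreeGroup Bool) : (ab (ι false c)).2.2 = 1 := by
  have : ((MonoidHom.snd _ _).comp ((MonoidHom.snd _ _).comp (ab.comp (ι false)))) = 1 := by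
    ext c
    cases c <;> simp [ι, xa, xb, xl, ab_inl, ab_inr]
  exact DFunLike.congr_fun this c

theorem ι_f (e : Bool) : ι e (FreeGroup.of false) = cond e (xa * xm) xa := by
  cases e <;> simp [ι]

theorem conj_inl (e : Bool) (p : X) (ζ : Z2) : ι e (q (p⁻¹ * Coprod.inl ζ * p)) =
    (ι e (q p))⁻¹ * (cond e (xa * xm) xa) ^ toAdd ζ.1 * ι e (q p) := by
  rw [inl_eq]
  simp [q_a, q_l, ι_f]

theorem mal_am {k : ℤ} (hk : k ≠ 0) {y : X} (h : y⁻¹ * (xa * xm) ^ k * y ∈ D.A true) :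
    y ∈ D.A true := by
  have e := eq_of_mem h
  simp only [map_mul, map_inv, map_zpow, q_a, q_m, mul_one, ι_f, cond_true] at e
  have hc : Commute (y * (ι true (q y))⁻¹) ((xa * xm) ^ k) := by
    have : (xa * xm) ^ k = y * ((ι true (q y))⁻¹ * (xa * xm) ^ k * ι true (q y)) * y⁻¹ := by
      rw [← e]; group
    unfold Commute SemiconjBy
    conv_rhs => rw [this]
    group
  obtain ⟨n, hn⟩ := Fp.cent_mul (G := Z2) (H := Z2) (g := (ofAdd 1, 1)) (h := (1, ofAdd 1))
    (by simp) (by simp) hk hc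
  refine ⟨FreeGroup.of false ^ n * q y, ?_⟩
  rw [map_mul, map_zpow, ι_f, cond_true]
  exact (eq_mul_inv_iff_mul_eq.1 hn)

/-- conjugating a cusp element into a cusp element only happens in the base group -/
theorem key {ζ : Z2} (hζ : ζ ≠ 1) {g : D.F} {w : X}
    (hw : (ab w).1 = 1 ∨ (ab w).2 = 1) (h : g⁻¹ * D.of (Coprod.inl ζ) * g = D.of w) :
    ∃ p, g = D.of p := by
  have T := D.tm
  have I := D.iso
  by_contra hg
  rw [← D.fix_x0] at hg
  have f0 : D.of (Coprod.inl ζ) • D.x0 = D.x0 := D.of_smul_x0 _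
  have fg : D.of (Coprod.inl ζ) • g • D.x0 = g • D.x0 := by
    rw [← mul_smul, eq_comm, D.smul_eq_iff]
    exact ⟨w, by rw [← h]; group⟩
  have hpos : 1 ≤ D.d D.x0 (g • D.x0) :=
    Nat.pos_of_ne_zero fun e => hg ((T.eq0 _ _).1 e).symm
  obtain ⟨x1, a1, a2⟩ := T.mid _ _ 1 hpos
  have f1 := fix_mid T I f0 fg (y := x1) (by omega)
  obtain ⟨p, e, rfl⟩ := (D.adj_iff 1 x1).1 (by rwa [one_smul])
  rw [one_mul] at f1 a1 a2
  have hu := D.fix_nb.1 f1
  have eu := eq_of_mem hu
  have au := congrArg ab eu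
  rw [conj_inl, ab_conj, ab_conj, ab_inl] at au
  cases e with
  | true =>
    rw [cond_true, ab_am] at au
    simp only [Prod.mk.injEq] at au
    have h1 : (1 : Multiplicative ℤ) = ofAdd (toAdd ζ.1) := congrArg Prod.snd au.2
    exact hζ (au.1.trans (by rw [← h1]; rfl))
  | false =>
    rw [cond_false, ab_a] at au
    have hk : toAdd ζ.1 ≠ 0 := fun e => hζ ((congrArg Prod.fst au).trans (by rw [e]; rfl))
    have eφ : D.φ false (p⁻¹ * Coprod.inl ζ * p) =
        (ι true (q p))⁻¹ * (xa * xm) ^ toAdd ζ.1 * ι true (q p) := by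
      rw [eu, φ_ι]; exact conj_inl true p ζ
    have ez : D.of (Coprod.inl ζ) = (D.of p * D.t false) *
        D.of (D.φ false (p⁻¹ * Coprod.inl ζ * p)) * (D.of p * D.t false)⁻¹ := by
      rw [← D.conj_of false hu, map_mul, map_mul, map_inv]; group
    by_cases hd : D.d ((D.of p * D.t false) • D.x0) (g • D.x0) = 0
    · obtain ⟨r, rfl⟩ := D.smul_eq_iff.1 ((T.eq0 _ _).1 hd)
      rw [ez, show (D.of p * D.t false * D.of r)⁻¹ * (D.of p * D.t false *
        D.of (D.φ false (p⁻¹ * Coprod.inl ζ * p)) * (D.of p * D.t false)⁻¹) *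
        (D.of p * D.t false * D.of r) = (D.of r)⁻¹ * D.of (D.φ false (p⁻¹ * Coprod.inl ζ * p)) *
        D.of r by group, ← map_inv, ← map_mul, ← map_mul] at h
      rw [← D.of_inj h, ab_conj, eφ, ab_conj, ab_am] at hw
      simp only [Prod.mk_eq_one, ofAdd_eq_one, and_true, true_and, or_self] at hw
      exact hk hw
    · obtain ⟨x2, b1, b2⟩ := T.mid _ _ 1 (Nat.pos_of_ne_zero hd)
      have f2 := fix_mid T I f1 fg (y := x2) (by omega)
      obtain ⟨r, e', rfl⟩ := (D.adj_iff _ x2).1 b1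
      have f3 : r⁻¹ * D.φ false (p⁻¹ * Coprod.inl ζ * p) * r ∈ D.A e' := by
        rw [← D.fix_nb]
        rw [ez, mul_assoc _ (D.of r), mul_smul (D.of p * D.t false) (D.of r * _), mul_smul,
          inv_smul_smul, mul_smul, smul_left_cancel_iff] at f2
        exact f2
      cases e' with
      | false =>
        have := ab_ι0 (q (r⁻¹ * D.φ false (p⁻¹ * Coprod.inl ζ * p) * r))
        rw [← eq_of_mem f3, ab_conj, eφ, ab_conj, ab_am] at this
        exact hk (ofAdd_eq_one.1 this)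
      | true =>
        have f4 : ι true (q p) * r ∈ D.A true := mal_am hk (by
          rw [eφ] at f3
          rwa [mul_inv_rev, ← mul_assoc, mul_assoc r⁻¹, mul_assoc r⁻¹])
        have f5 : r ∈ D.A true := ((D.A true).mul_mem_cancel_left ⟨_, rfl⟩).1 f4
        have f6 : (D.of p * D.t false * D.of r * D.t true) • D.x0 = D.x0 := by
          have f7 : (D.t false * D.of r * D.t true) • D.x0 = D.x0 :=
            (D.back_iff (e := false) (e' := true)).2 ⟨rfl, f5⟩
          rw [mul_assoc, mul_assoc, mul_smul, ← mul_assoc, f7, D.of_smul_x0]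
        rw [f6] at b2
        omega

end Br

/-- the Borromean rings group -/
def Bor : Type := PresentedGroup (Set.range fun i : Fin 3 =>
  lon FreeGroup.of i * FreeGroup.of i * (lon FreeGroup.of i)⁻¹ * (FreeGroup.of i)⁻¹)

instance : Group Bor := inferInstanceAs (Group (PresentedGroup _))

namespace Bor

/-- meridians -/
def m (i : Fin 3) : Bor := PresentedGroup.of i

theorem comm (i : Fin 3) : Commute (m i) (lon m i) := by
  have : (PresentedGroup.mk _ (lon FreeGroup.of i * FreeGroup.of i * (lon FreeGroup.of i)⁻¹ *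
      (FreeGroup.of i)⁻¹) : Bor) = 1 := PresentedGroup.one_of_mem ⟨i, rfl⟩
  rw [map_mul, map_mul, map_mul, map_inv, map_inv, map_lon, mul_inv_eq_one,
    mul_inv_eq_iff_eq_mul] at this
  exact this.symm

/-- universal property -/
def lift {K : Type*} [Group K] (n : Fin 3 → K) (h : ∀ i, Commute (n i) (lon n i)) : Bor →* K :=
  PresentedGroup.toGroup (f := n) (by
    rintro _ ⟨i, rfl⟩
    rw [map_mul, map_mul, map_mul, map_inv, map_inv, map_lon]
    simp only [FreeGroup.lift_apply_of]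
    rw [← (h i).eq]; group)

@[simp] theorem lift_m {K : Type*} [Group K] (n : Fin 3 → K) (h : ∀ i, Commute (n i) (lon n i))
    (i : Fin 3) : lift n h (m i) = n i := PresentedGroup.toGroup.of _

theorem hom_ext {K : Type*} [Group K] {f g : Bor →* K} (h : ∀ i, f (m i) = g (m i)) : f = g :=
  PresentedGroup.ext h

theorem closure_m : Subgroup.closure (Set.range m) = ⊤ := PresentedGroup.closure_range_of _

/-- the cusps -/
def cu (i : Fin 3) : Z2 →* Bor := t2 (comm i)

theorem lon_succ {K : Type*} [Group K] (n : Fin 3 → K) (i : Fin 3) :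
    lon (fun j => n (j + 1)) i = lon n (i + 1) := by
  simp only [lon, add_right_comm i 1]

/-- the cyclic symmetry -/
def σ : Bor →* Bor := lift (fun i => m (i + 1)) fun i => by rw [lon_succ]; exact comm _

theorem σ_cu (i : Fin 3) (ζ : Z2) : σ (cu i ζ) = cu (i + 1) ζ := by
  simp only [cu, t2_apply, map_mul, map_zpow, map_lon, σ, lift_m, lon_succ]

theorem σ3 (g : Bor) : σ (σ (σ g)) = g := by
  have : σ.comp (σ.comp σ) = MonoidHom.id _ := hom_ext fun i => by
    simp only [MonoidHom.comp_apply, σ, lift_m, MonoidHom.id_apply]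
    congr 1
    fin_cases i <;> rfl
  exact DFunLike.congr_fun this g

theorem σ_inj : Function.Injective σ := fun a b h => by rw [← σ3 a, h, σ3]

open Br

theorem rel (c : FreeGroup Bool) : (D.t false)⁻¹ * D.of (ι false c) * D.t false = D.of (ι true c) := by
  rw [D.conj_of false ⟨c, rfl⟩, φ_ι]; rfl

theorem rel_a : (D.t false)⁻¹ * D.of xa * D.t false = D.of xa * D.of xm := by
  simpa [ι] using rel (FreeGroup.of false)

theorem rel_b : (D.t false)⁻¹ * (D.of xb * (D.of xl)⁻¹) * D.t false = D.of xb := by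
  simpa [ι] using rel (FreeGroup.of true)

/-- the images of the meridians -/
noncomputable def n : Fin 3 → D.F := ![D.of xa, (D.of xb)⁻¹, (D.t false)⁻¹]

theorem lon_n0 : lon n 0 = D.of xl := by
  show (D.t false)⁻¹⁻¹ * (D.of xb)⁻¹ * (D.t false)⁻¹ * (D.of xb)⁻¹⁻¹ = _
  conv_lhs => lhs; rw [← rel_b]
  group

theorem lon_n1 : lon n 1 = D.of xm := by
  show (D.of xa)⁻¹ * (D.t false)⁻¹ * D.of xa * (D.t false)⁻¹⁻¹ = _
  rw [inv_inv, mul_assoc, mul_assoc, ← mul_assoc (D.t false)⁻¹, rel_a]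
  group

theorem comm_n (i : Fin 3) : Commute (n i) (lon n i) := by
  fin_cases i
  · exact lon_n0 ▸ c_al.map D.of
  · exact lon_n1 ▸ (c_bm.map D.of).inv_left
  · have e := rel (FreeGroup.of true * FreeGroup.of false * (FreeGroup.of true)⁻¹ *
      (FreeGroup.of false)⁻¹)
    have e0 : ι false (FreeGroup.of true * FreeGroup.of false * (FreeGroup.of true)⁻¹ *
      (FreeGroup.of false)⁻¹) = xb * xa * xb⁻¹ * xa⁻¹ := by
      simp only [ι, map_mul, map_inv, FreeGroup.lift_apply_of, cond_true, cond_false]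
      rw [mul_assoc xb xl⁻¹, ← c_al.inv_right.eq]; group
    have e1 : ι true (FreeGroup.of true * FreeGroup.of false * (FreeGroup.of true)⁻¹ *
      (FreeGroup.of false)⁻¹) = xb * xa * xb⁻¹ * xa⁻¹ := by
      simp only [ι, map_mul, map_inv, FreeGroup.lift_apply_of, cond_true, cond_false]
      rw [← mul_assoc xb xa xm, mul_assoc _ xm, ← c_bm.inv_left.eq]; group
    rw [e0, e1, map_mul, map_mul, map_mul, map_inv, map_inv] at e
    show (D.t false)⁻¹ * ((D.of xb)⁻¹⁻¹ * D.of xa * (D.of xb)⁻¹ * (D.of xa)⁻¹) =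
      ((D.of xb)⁻¹⁻¹ * D.of xa * (D.of xb)⁻¹ * (D.of xa)⁻¹) * (D.t false)⁻¹
    rw [inv_inv, eq_mul_inv_iff_mul_eq, e]

/-- the embedding into the HNN extension -/
noncomputable def J : Bor →* D.F := lift n comm_n

/-- the base group mapped to `Bor` -/
def f : X →* Bor := Coprod.lift (t2 (comm 0)) (t2 (comm 1).inv_left)

theorem f_a : f xa = m 0 := by simp [f, xa, t2_apply]
theorem f_l : f xl = lon m 0 := by simp [f, xl, t2_apply]
theorem f_b : f xb = (m 1)⁻¹ := by simp [f, xb, t2_apply]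
theorem f_m : f xm = lon m 1 := by simp [f, xm, t2_apply]

theorem f_rel (c : FreeGroup Bool) : m 2 * f (ι false c) * (m 2)⁻¹ = f (ι true c) := by
  have : (MulAut.conj (m 2)).toMonoidHom.comp (f.comp (ι false)) = f.comp (ι true) := by
    ext c
    cases c
    · simp only [ι, MonoidHom.comp_apply, FreeGroup.lift_apply_of, cond_true, cond_false, map_mul,
        f_a, f_m, MulEquiv.coe_toMonoidHom, MulAut.conj_apply]
      show _ = m 0 * ((m 0)⁻¹ * m 2 * m 0 * (m 2)⁻¹)
      group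
    · simp only [ι, MonoidHom.comp_apply, FreeGroup.lift_apply_of, cond_true, cond_false, map_mul,
        map_inv, f_b, f_l, MulEquiv.coe_toMonoidHom, MulAut.conj_apply]
      rw [show lon m 0 = (m 2)⁻¹ * m 1 * m 2 * (m 1)⁻¹ from rfl]
      group
  exact DFunLike.congr_fun this c

/-- the retraction -/
noncomputable def R : D.F →* Bor :=
  D.lift f (fun e => cond e (m 2) (m 2)⁻¹) (fun e => by cases e <;> simp [D, GG.ofHom]) (by
    rintro e _ ⟨c, rfl⟩
    rw [φ_ι]
    cases e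
    · simpa using f_rel c
    · simp only [cond_true, Bool.not_true]
      rw [← f_rel]; group)

theorem R_J (g : Bor) : R (J g) = g := by
  have : R.comp J = MonoidHom.id _ := hom_ext fun i => by
    fin_cases i <;> simp [R, J, n, f_a, f_b]
  exact DFunLike.congr_fun this g

theorem J_cu0 (ζ : Z2) : J (cu 0 ζ) = D.of (Coprod.inl ζ) := by
  rw [inl_eq]
  simp only [cu, t2_apply, map_mul, map_zpow, map_lon, J, lift_m, lon_n0]
  rfl

theorem J_cu1 (ζ : Z2) : J (cu 1 ζ) = D.of (Coprod.inr (ζ.1⁻¹, ζ.2)) := by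
  rw [inr_eq]
  simp only [cu, t2_apply, map_mul, map_zpow, map_lon, J, lift_m, lon_n1, toAdd_inv, zpow_neg]
  rw [map_inv, map_zpow, ← inv_zpow]
  rfl

theorem cu_inj (i : Fin 3) : Function.Injective (cu i) := by
  have h0 : Function.Injective (cu 0) := fun a b h => by
    have := congrArg J h
    rw [J_cu0, J_cu0] at this
    exact Coprod.inl_injective (D.of_inj this)
  have hs : ∀ i, Function.Injective (cu i) → Function.Injective (cu (i + 1)) := fun i hi a b h =>
    hi (σ_inj (by rwa [σ_cu, σ_cu]))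
  fin_cases i
  exacts [h0, hs 0 h0, hs 1 (hs 0 h0)]

theorem ind (i : Fin 3) : Ind (lon m i) (m i) := ((t2_inj_iff (comm i)).1 (cu_inj i)).symm

theorem mal00 {ζ ζ' : Z2} (hζ : ζ ≠ 1) {g : Bor} (h : g⁻¹ * cu 0 ζ * g = cu 0 ζ') :
    g ∈ (cu 0).range := by
  have e := congrArg J h
  rw [map_mul, map_mul, map_inv, J_cu0, J_cu0] at e
  obtain ⟨p, hp⟩ := key hζ (Or.inr rfl) e
  rw [hp, ← map_inv, ← map_mul, ← map_mul] at e
  obtain ⟨η, rfl⟩ := Fp.mal_inl hζ ⟨_, (D.of_inj e).symm⟩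
  exact ⟨η, by rw [← R_J g, hp, ← J_cu0, R_J]⟩

theorem mal01 {ζ ζ' : Z2} (hζ : ζ ≠ 1) {g : Bor} : g⁻¹ * cu 0 ζ * g ≠ cu 1 ζ' := by
  intro h
  have e := congrArg J h
  rw [map_mul, map_mul, map_inv, J_cu0, J_cu1] at e
  obtain ⟨p, hp⟩ := key hζ (Or.inl rfl) e
  rw [hp, ← map_inv, ← map_mul, ← map_mul] at e
  have := congrArg ab (D.of_inj e)
  rw [ab_conj, ab_inl, ab_inr] at this
  exact hζ (congrArg Prod.fst this)

/-- the malnormality statement for a pair of cusps -/
def Mal (i j : Fin 3) : Prop := ∀ (ζ ζ' : Z2) (g : Bor), ζ ≠ 1 → g⁻¹ * cu i ζ * g = cu j ζ' →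
  i = j ∧ g ∈ (cu i).range

theorem Mal.succ {i j : Fin 3} (h : Mal i j) : Mal (i + 1) (j + 1) := by
  intro ζ ζ' g hζ e
  obtain ⟨rfl, η, hη⟩ := h ζ ζ' (σ (σ g)) hζ (σ_inj (by
    rw [map_mul, map_mul, map_inv, σ3, σ_cu, σ_cu, e]))
  exact ⟨rfl, η, by rw [← σ_cu, hη, σ3]⟩

theorem Mal.symm {i j : Fin 3} (h : Mal i j) : Mal j i := by
  intro ζ ζ' g hζ e
  obtain ⟨rfl, hg⟩ := h ζ' ζ g⁻¹ (fun e1 => hζ (cu_inj j (by
    rw [e1, map_one] at e
    rw [map_one, show cu j ζ = g * (g⁻¹ * cu j ζ * g) * g⁻¹ by group, e]; simp)))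
    (by rw [← e]; group)
  exact ⟨rfl, (Subgroup.inv_mem_iff _).1 hg⟩

/-- **the cusps of the Borromean group are malnormal** -/
theorem mal (i j : Fin 3) : Mal i j := by
  have h00 : Mal 0 0 := fun _ _ _ hζ e => ⟨rfl, mal00 hζ e⟩
  have h01 : Mal 0 1 := fun _ _ _ hζ e => absurd e (mal01 hζ)
  have h12 : Mal 1 2 := h01.succ
  have h20 : Mal 2 0 := h12.succ
  have h11 : Mal 1 1 := h00.succ
  have h22 : Mal 2 2 := h11.succ
  fin_cases i <;> fin_cases j
  exacts [h00, h01, h20.symm, h01.symm, h11, h12, h20, h12.symm, h22]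

end Bor

end Crest.Agent.N233.Js
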