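import Crest.Agent.N233.Js.Ty

/-!
# Row 233, block Js: the tree of a free product `G ∗ H`; malnormality and centralisers
-/

set_option autoImplicit false
set_option linter.unusedVariables false
set_option linter.unusedSectionVars false

namespace Crest.Agent.N233.Js

open Crest.Agent.R179.BSL703 MulAction Monoid

theorem TG.acyl0 {P : Type*} [Group P] {E ι : Type*} (D : TG P E ι) (hA : ∀ e, D.A e = ⊥) (b : ι) :
    Acyl (D.L b) (D.dS b) 0 := by
  intro g x y hx hy hd
  obtain ⟨z, h1, h2⟩ := (D.tmS b).mid x y 1 hd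
  have f2 := congrArg Subtype.val (fix_mid (D.tmS b) (D.isoS b) hx hy (y := z) (by omega))
  obtain ⟨x, w, γ, hγ, rfl⟩ := x
  obtain ⟨p, hp, e, rfl, ez⟩ := hγ.nb z.2 h1
  obtain ⟨q, hq, eg⟩ := (hγ.stab g.2).1 (congrArg Subtype.val hx)
  rw [TG.coe_smul, ez, eg, TG.fix_nb', hA, Subgroup.mem_bot] at f2
  have : q = 1 := by
    rw [show q = p * (p⁻¹ * q * p) * p⁻¹ by group, f2]; simp
  refine Subtype.ext ?_
  rw [eg, this]; simp

theorem two_of {V : Type*} {d : V → V → ℕ} (T : TM d) {a b c : V} (h1 : d a b = 1) (h2 : d b c = 1)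
    (h : a ≠ c) : d a c = 2 := by
  have := T.parity a b c
  have := T.tri a b c
  have : d a c ≠ 0 := fun e => h ((T.eq0 _ _).1 e)
  omega

namespace Fp

variable (G H : Type*) [Group G] [Group H]

/-- the graph of groups with one edge and trivial edge group -/
def tg : TG (Coprod G H) Bool Bool where
  bar := not
  bar_bar := Bool.not_not
  bar_ne := Bool.not_ne_self
  A _ := ⊥
  φ _ _ := 1
  φ_mem _ _ _ := Subgroup.one_mem _
  φ_mul _ _ _ _ _ := (mul_one _).symm
  φ_φ _ _ h := (Subgroup.mem_bot.1 h).symm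
  o e := e
  G e := cond e Coprod.inr.range Coprod.inl.range
  A_le _ := bot_le

theorem p0 : (tg G H).Path false false 1 := TG.Path.nil

theorem p1 : (tg G H).Path false true ((tg G H).t false) := TG.path_t (D := tg G H) false

/-- the free product is the group of typed loops -/
def j : Coprod G H →* (tg G H).L false :=
  Coprod.lift ((p0 G H).emb.comp (Coprod.inl : G →* Coprod G H).rangeRestrict)
    ((p1 G H).emb.comp (Coprod.inr : H →* Coprod G H).rangeRestrict)

/-- the retraction -/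
def ρ : (tg G H).F →* Coprod G H :=
  (tg G H).lift (MonoidHom.id _) (fun _ => 1) (fun _ => inv_one.symm) (fun e a ha => by
    rw [Subgroup.mem_bot.1 ha]; simp [tg])

theorem j_inl (g : G) : (j G H (Coprod.inl g) : (tg G H).F) = (tg G H).of (Coprod.inl g) := by
  simp [j, TG.Path.emb]; rfl

theorem j_inr (h : H) : (j G H (Coprod.inr h) : (tg G H).F) =
    (tg G H).t false * (tg G H).of (Coprod.inr h) * ((tg G H).t false)⁻¹ := by
  simp [j, TG.Path.emb]; rfl

theorem ρ_of (p : Coprod G H) : ρ G H ((tg G H).of p) = p := by simp [ρ]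

theorem ρ_t (e : Bool) : ρ G H ((tg G H).t e) = 1 := by simp [ρ]

theorem ρ_j (c : Coprod G H) : ρ G H (j G H c) = c := by
  induction c using Coprod.induction_on with
  | inl g => rw [j_inl, ρ_of]
  | inr h => rw [j_inr]; simp [ρ_of, ρ_t]
  | mul a b ha hb => simp [ha, hb]

theorem j_inj : Function.Injective (j G H) := fun a b e => by rw [← ρ_j G H a, e, ρ_j]

theorem path_end {w : Bool} {γ : (tg G H).F} (h : (tg G H).Path false w γ) :
    ∃ c : Coprod G H, γ = j G H c * cond w ((tg G H).t false) 1 := by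
  induction h with
  | nil => exact ⟨1, by simp⟩
  | @mul w γ p _ hp ih =>
    obtain ⟨c, rfl⟩ := ih
    cases w with
    | false =>
      obtain ⟨g, rfl⟩ := hp
      exact ⟨c * Coprod.inl g, by simp [j_inl]⟩
    | true =>
      obtain ⟨g, rfl⟩ := hp
      exact ⟨c * Coprod.inr g, by simp [j_inr, mul_assoc]⟩
  | step e _ ih =>
    obtain ⟨c, rfl⟩ := ih
    cases e with
    | false => exact ⟨c, congrArg (· * (tg G H).t false) (mul_one _)⟩
    | true =>
      have : (tg G H).t true = ((tg G H).t false)⁻¹ := (tg G H).t_bar false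
      exact ⟨c, by rw [this]; exact (mul_inv_cancel_right _ _).trans (mul_one _).symm⟩

/-- the vertices of the tree -/
def V : Type _ := (tg G H).S false

instance : MulAction (Coprod G H) (V G H) := MulAction.compHom ((tg G H).S false) (j G H)

/-- the tree metric -/
noncomputable def d : V G H → V G H → ℕ := (tg G H).dS false

/-- the vertex of `G` -/
def x : V G H := ⟨_, false, 1, p0 G H, rfl⟩

/-- the vertex of `H` -/
def y : V G H := ⟨_, true, _, p1 G H, rfl⟩

instance : Nonempty (V G H) := ⟨x G H⟩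

theorem tm : TM (d G H) := (tg G H).tmS false

theorem iso : Iso (Coprod G H) (d G H) := fun g a b => (tg G H).isoS false (j G H g) a b

theorem ni : NI (Coprod G H) (d G H) := fun g a b => (tg G H).niS false (j G H g) a b

theorem acyl : Acyl (Coprod G H) (d G H) 0 := fun g a b h1 h2 h3 =>
  j_inj G H (((tg G H).acyl0 (fun _ => rfl) false (j G H g) a b h1 h2 h3).trans (map_one _).symm)

theorem d_xy : d G H (x G H) (y G H) = 1 := by
  have := (tg G H).d_step 1 1 false
  rw [map_one, mul_one, one_mul] at this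
  exact this

variable {G H}

theorem fix_x {c : Coprod G H} : c • x G H = x G H ↔ c ∈ (Coprod.inl : G →* Coprod G H).range := by
  refine ((p0 G H).emb_fix (j G H c)).trans ⟨?_, ?_⟩
  · rintro ⟨⟨_, g, rfl⟩, e⟩
    exact ⟨g, j_inj G H (by rw [← e]; simp [j]; rfl)⟩
  · rintro ⟨g, rfl⟩
    exact ⟨⟨_, g, rfl⟩, by simp [j]; rfl⟩

theorem fix_y {c : Coprod G H} : c • y G H = y G H ↔ c ∈ (Coprod.inr : H →* Coprod G H).range := by
  refine ((p1 G H).emb_fix (j G H c)).trans ⟨?_, ?_⟩
  · rintro ⟨⟨_, g, rfl⟩, e⟩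
    exact ⟨g, j_inj G H (by rw [← e]; simp [j]; rfl)⟩
  · rintro ⟨g, rfl⟩
    exact ⟨⟨_, g, rfl⟩, by simp [j]; rfl⟩

theorem inl_x (g : G) : (Coprod.inl g : Coprod G H) • x G H = x G H := fix_x.2 ⟨g, rfl⟩

theorem inr_y (h : H) : (Coprod.inr h : Coprod G H) • y G H = y G H := fix_y.2 ⟨h, rfl⟩

/-- two orbits of vertices -/
theorem orbits (v : V G H) : ∃ c : Coprod G H, v = c • x G H ∨ v = c • y G H := by
  obtain ⟨_, w, γ, h, rfl⟩ := v
  obtain ⟨c, rfl⟩ := path_end G H h
  cases w with
  | false => exact ⟨c, Or.inl (Subtype.ext (mul_smul _ _ _))⟩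
  | true => exact ⟨c, Or.inr (Subtype.ext (mul_smul _ _ _))⟩

/-- a nontrivial element fixes at most one vertex -/
theorem fix_uniq {c : Coprod G H} (hc : c ≠ 1) {a b : V G H} (ha : c • a = a) (hb : c • b = b) :
    a = b := by
  by_contra hne
  exact hc (acyl G H c a b ha hb (Nat.pos_of_ne_zero fun e => hne (((tm G H).eq0 _ _).1 e)))

theorem x_ne_y : x G H ≠ y G H := fun e => by
  have := d_xy G H
  rw [e, (tm G H).self] at this
  omega

/-- the factors are malnormal -/
theorem mal_inl {z : G} (hz : z ≠ 1) {c : Coprod G H}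
    (h : c⁻¹ * Coprod.inl z * c ∈ (Coprod.inl : G →* Coprod G H).range) :
    c ∈ (Coprod.inl : G →* Coprod G H).range := by
  rw [← fix_x, mul_smul, mul_smul, inv_smul_eq_iff] at h
  exact fix_x.1 (fix_uniq (fun e => hz (Coprod.inl_injective (e.trans (map_one _).symm))) h
    (inl_x z))

theorem mal_inr {z : H} (hz : z ≠ 1) {c : Coprod G H}
    (h : c⁻¹ * Coprod.inr z * c ∈ (Coprod.inr : H →* Coprod G H).range) :
    c ∈ (Coprod.inr : H →* Coprod G H).range := by
  rw [← fix_y, mul_smul, mul_smul, inv_smul_eq_iff] at h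
  exact fix_y.1 (fix_uniq (fun e => hz (Coprod.inr_injective (e.trans (map_one _).symm))) h
    (inr_y z))

theorem d_inl (g : G) : d G H (x G H) ((Coprod.inl g : Coprod G H) • y G H) = 1 := by
  conv_lhs => rw [← inl_x (H := H) g]
  rw [iso G H, d_xy]

theorem d_inr (h : H) : d G H (y G H) ((Coprod.inr h : Coprod G H) • x G H) = 1 := by
  conv_lhs => rw [← inr_y (G := G) h]
  rw [iso G H, (tm G H).symm, d_xy]

theorem even_y (c : Coprod G H) : d G H (y G H) (c • y G H) % 2 = 0 := by
  induction c using Coprod.induction_on with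
  | inl g =>
    have := (tm G H).parity (y G H) (x G H) ((Coprod.inl g : Coprod G H) • y G H)
    rw [d_inl, (tm G H).symm _ (x G H), d_xy] at this
    omega
  | inr h => rw [inr_y, (tm G H).self]
  | mul a b ha hb =>
    have := (tm G H).parity (y G H) (a • y G H) ((a * b) • y G H)
    rw [mul_smul, iso G H] at this
    rw [mul_smul]
    omega

theorem axis_mul {g : G} {h : H} (hg : g ≠ 1) (hh : h ≠ 1) (k : ℕ) :
    d G H (y G H) (((Coprod.inl g : Coprod G H) * Coprod.inr h) ^ k • y G H) = k * 2 := by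
  have T := tm G H
  have I := iso G H
  have g1 : (Coprod.inl g : Coprod G H) ≠ 1 := fun e =>
    hg (Coprod.inl_injective (e.trans (map_one _).symm))
  have h1 : (Coprod.inr h : Coprod G H) ≠ 1 := fun e =>
    hh (Coprod.inr_injective (e.trans (map_one _).symm))
  have n1 : y G H ≠ (Coprod.inl g : Coprod G H) • y G H := fun e =>
    x_ne_y (fix_uniq g1 (inl_x g) e.symm)
  have n2 : x G H ≠ (Coprod.inr h : Coprod G H) • x G H := fun e =>
    x_ne_y (fix_uniq h1 e.symm (inr_y h))
  have a1 : d G H (y G H) (x G H) = 1 := by rw [T.symm, d_xy]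
  have a2 := d_inl (H := H) g
  have a3 := two_of T a1 a2 n1
  have a4 := two_of T (d_xy G H) (d_inr h) n2
  set γ := (Coprod.inl g : Coprod G H) * Coprod.inr h with hγ
  have e1 : γ • y G H = (Coprod.inl g : Coprod G H) • y G H := by rw [hγ, mul_smul, inr_y]
  have b1 : d G H (γ • y G H) (γ • x G H) = 1 := by rw [I, a1]
  have b2 : d G H (x G H) (γ • x G H) = 2 := by
    conv_lhs => rw [hγ, mul_smul]; lhs; rw [← inl_x (H := H) g]
    rw [I, a4]
  have b3 : d G H (γ • x G H) (γ ^ 2 • y G H) = 1 := by rw [pow_two, mul_smul γ γ, I, e1, a2]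
  have b4 : d G H (γ • y G H) (γ ^ 2 • y G H) = 2 := by rw [pow_two, mul_smul γ γ, I, e1, a3]
  rw [← e1] at a2 a3
  have c1 := T.glue (x := y G H) (y := x G H) (z := γ • y G H) (w := γ • x G H)
    (by omega) (by omega) (by omega)
  have c2 := T.glue (x := y G H) (y := γ • y G H) (z := γ • x G H) (w := γ ^ 2 • y G H)
    (by omega) (by omega) (by omega)
  exact loc_glob T I (by omega) a3 (by omega) k

theorem hypb_mul' {g : G} {h : H} (hg : g ≠ 1) (hh : h ≠ 1) :
    Hypb (V G H) ((Coprod.inl g : Coprod G H) * Coprod.inr h) :=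
  hypb_of_growth (tm G H) (iso G H) (by omega) (axis_mul hg hh)

theorem zpow_mul_eq_one {g : G} {h : H} (hg : g ≠ 1) (hh : h ≠ 1) {k : ℤ}
    (e : ((Coprod.inl g : Coprod G H) * Coprod.inr h) ^ k = 1) : k = 0 := by
  by_contra hk
  exact hypb_mul' hg hh k hk (x G H) (by rw [e, one_smul])

/-- the centraliser of a power of `g h` -/
theorem cent_mul {g : G} {h : H} (hg : g ≠ 1) (hh : h ≠ 1) {k : ℤ} (hk : k ≠ 0) {c : Coprod G H}
    (hc : Commute c (((Coprod.inl g : Coprod G H) * Coprod.inr h) ^ k)) :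
    c ∈ Subgroup.zpowers ((Coprod.inl g : Coprod G H) * Coprod.inr h) := by
  have T := tm G H
  have I := iso G H
  have ax := axis_mul hg hh
  have hy := hypb_mul' hg hh
  set γ := (Coprod.inl g : Coprod G H) * Coprod.inr h with hγ
  have hc' : Commute c (γ ^ k.natAbs) := by
    rcases Int.natAbs_eq k with e | e
    · rw [e, zpow_natCast] at hc; exact hc
    · rw [e, zpow_neg, zpow_natCast] at hc; exact Commute.inv_right_iff.1 hc
  obtain ⟨i, hi⟩ := on_axis T I (y := c • y G H) (k := k.natAbs) (by omega) (by omega) ax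
    (by rw [← mul_smul, ← hc'.eq, mul_smul, I, ax])
  have key : ∀ i : ℤ, d G H (γ ^ i • y G H) (c • y G H) = 0 → c ∈ Subgroup.zpowers γ := by
    intro i h0
    have e1 : (γ ^ (-i) * c) • y G H = y G H := by
      rw [mul_smul, ← (T.eq0 _ _).1 h0, ← mul_smul, ← zpow_add, neg_add_cancel, zpow_zero, one_smul]
    have e2 := eq_one_of_comm T I (acyl G H) (γ := γ ^ k) (fun m hm v => by
      rw [← zpow_mul]; exact hy _ (mul_ne_zero hk hm) v) ⟨_, e1⟩
      ((Commute.zpow_zpow_self γ _ _).mul_left hc)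
    rw [zpow_neg, inv_mul_eq_one] at e2
    exact ⟨i, e2⟩
  have ev := even_y ((γ ^ i)⁻¹ * c)
  rw [← I (γ ^ i), mul_smul, smul_inv_smul] at ev
  by_cases h0 : d G H (γ ^ i • y G H) (c • y G H) = 0
  · exact key i h0
  · exact key (i + 1) (by rw [T.symm]; omega)

end Fp

/-- a cyclic free factor is malnormal -/
theorem mal_of_factor {K : Type*} [Group K] {c : K} (j : K →* Coprod (Multiplicative ℤ) K)
    (h1 : j c = Coprod.inl (Multiplicative.ofAdd 1))
    (h2 : ∀ k, Coprod.lift (zpowersHom K c) (MonoidHom.id K) (j k) = k) {a b : ℤ} (ha : a ≠ 0)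
    {p : K} (h : p⁻¹ * c ^ a * p = c ^ b) : p ∈ Subgroup.zpowers c := by
  have e := congrArg j h
  rw [map_mul, map_mul, map_inv, map_zpow, map_zpow, h1,
    ← map_zpow (Coprod.inl : Multiplicative ℤ →* Coprod (Multiplicative ℤ) K),
    ← map_zpow (Coprod.inl : Multiplicative ℤ →* Coprod (Multiplicative ℤ) K)] at e
  obtain ⟨n, hn⟩ := Fp.mal_inl (z := Multiplicative.ofAdd (1 : ℤ) ^ a) (by
    rw [← ofAdd_zsmul]; simpa using ha) (c := j p) ⟨_, e.symm⟩
  refine ⟨Multiplicative.toAdd n, ?_⟩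
  rw [← h2 p, ← hn]
  simp

end Crest.Agent.N233.Js
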