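import Crest.Agent.N233.Js.Tm

/-!
# Row 233, block Js: multiple HNN extensions, normal forms and the Bass–Serre tree

`D : GG P E`: half-edges `E` with an involution `bar`, subgroups `A e ≤ P` and isomorphisms
`φ e : A e → A (bar e)`.  `D.F = ⟨P, t e | t (bar e) = (t e)⁻¹, (t e)⁻¹ a (t e) = φ e a⟩`.
-/

set_option autoImplicit false
set_option linter.unusedVariables false
set_option linter.unusedSectionVars false

namespace Crest.Agent.N233.Js

open Crest.Agent.R179.BSL703 MulAction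

/-- data of a multiple HNN extension -/
structure GG (P : Type*) [Group P] (E : Type*) where
  bar : E → E
  bar_bar : ∀ e, bar (bar e) = e
  bar_ne : ∀ e, bar e ≠ e
  A : E → Subgroup P
  φ : E → P → P
  φ_mem : ∀ e, ∀ a ∈ A e, φ e a ∈ A (bar e)
  φ_mul : ∀ e, ∀ a ∈ A e, ∀ b ∈ A e, φ e (a * b) = φ e a * φ e b
  φ_φ : ∀ e, ∀ a ∈ A e, φ (bar e) (φ e a) = a

theorem exists_rep {P : Type*} [Group P] (A : Subgroup P) : ∃ r : P → P,
    (∀ p, p * (r p)⁻¹ ∈ A) ∧ (∀ a ∈ A, ∀ p, r (a * p) = r p) ∧ (∀ p ∈ A, r p = 1) := by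
  classical
  refine ⟨fun p => if p ∈ A then 1 else
    (Quotient.mk (QuotientGroup.rightRel A) p).out, fun p => ?_, fun a ha p => ?_,
    fun p hp => by simp [hp]⟩
  · by_cases hp : p ∈ A
    · simp [hp]
    · simp only [hp, if_false]
      exact QuotientGroup.rightRel_apply.1 (Quotient.mk_out (s := QuotientGroup.rightRel A) p)
  · have e : Quotient.mk (QuotientGroup.rightRel A) (a * p)
        = Quotient.mk (QuotientGroup.rightRel A) p := by
      refine Quotient.sound (QuotientGroup.rightRel_apply.2 ?_)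
      simpa using ha
    simp only [e, A.mul_mem_cancel_left ha]

namespace GG

variable {P : Type*} [Group P] {E : Type*} (D : GG P E)

theorem φ_one (e : E) : D.φ e 1 = 1 := by
  have := D.φ_mul e 1 (D.A e).one_mem 1 (D.A e).one_mem
  rw [mul_one] at this
  exact left_eq_mul.1 this

theorem φ_inv (e : E) {a : P} (ha : a ∈ D.A e) : D.φ e a⁻¹ = (D.φ e a)⁻¹ := by
  rw [eq_inv_iff_mul_eq_one, ← D.φ_mul e _ ((D.A e).inv_mem ha) _ ha, inv_mul_cancel, φ_one]

theorem bar_inj {e e' : E} : D.bar e = D.bar e' ↔ e = e' :=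
  ⟨fun h => by rw [← D.bar_bar e, h, D.bar_bar], fun h => by rw [h]⟩

theorem φ_eq_one (e : E) {a : P} (ha : a ∈ D.A e) (h : D.φ e a = 1) : a = 1 := by
  rw [← D.φ_φ e a ha, h, φ_one]

/-- the relators -/
def rels : Set (Monoid.Coprod P (FreeGroup E)) :=
  {x | (∃ e, x = Monoid.Coprod.inr (FreeGroup.of (D.bar e)) * Monoid.Coprod.inr (FreeGroup.of e)) ∨
    ∃ e, ∃ a ∈ D.A e, x = (Monoid.Coprod.inr (FreeGroup.of e))⁻¹ * Monoid.Coprod.inl a *
      Monoid.Coprod.inr (FreeGroup.of e) * (Monoid.Coprod.inl (D.φ e a))⁻¹}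

/-- the multiple HNN extension -/
def F : Type _ := Monoid.Coprod P (FreeGroup E) ⧸ Subgroup.normalClosure D.rels

instance : Group D.F :=
  inferInstanceAs (Group (Monoid.Coprod P (FreeGroup E) ⧸ Subgroup.normalClosure D.rels))

/-- the quotient map -/
def mkF : Monoid.Coprod P (FreeGroup E) →* D.F := QuotientGroup.mk' _

/-- the base group -/
def of : P →* D.F := D.mkF.comp Monoid.Coprod.inl

/-- the stable letters -/
def t (e : E) : D.F := D.mkF (Monoid.Coprod.inr (FreeGroup.of e))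

theorem mkF_rel {x : Monoid.Coprod P (FreeGroup E)} (h : x ∈ D.rels) : D.mkF x = 1 :=
  (QuotientGroup.eq_one_iff _).2 (Subgroup.subset_normalClosure h)

theorem t_bar (e : E) : D.t (D.bar e) = (D.t e)⁻¹ := by
  rw [eq_inv_iff_mul_eq_one]
  have := D.mkF_rel (Or.inl ⟨e, rfl⟩)
  rwa [map_mul] at this

theorem conj_of (e : E) {a : P} (ha : a ∈ D.A e) :
    (D.t e)⁻¹ * D.of a * D.t e = D.of (D.φ e a) := by
  have := D.mkF_rel (Or.inr ⟨e, a, ha, rfl⟩)
  rw [map_mul, map_mul, map_mul, map_inv, map_inv, mul_inv_eq_one] at this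
  exact this

/-- universal property -/
def lift {H : Type*} [Group H] (f : P →* H) (s : E → H) (h1 : ∀ e, s (D.bar e) = (s e)⁻¹)
    (h2 : ∀ e, ∀ a ∈ D.A e, (s e)⁻¹ * f a * s e = f (D.φ e a)) : D.F →* H :=
  QuotientGroup.lift _ (Monoid.Coprod.lift f (FreeGroup.lift s)) (by
    refine Subgroup.normalClosure_le_normal ?_
    rintro x (⟨e, rfl⟩ | ⟨e, a, ha, rfl⟩)
    · simp [h1]
    · simp [h2 e a ha])

section lift
variable {H : Type*} [Group H] (f : P →* H) (s : E → H) (h1 : ∀ e, s (D.bar e) = (s e)⁻¹)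
    (h2 : ∀ e, ∀ a ∈ D.A e, (s e)⁻¹ * f a * s e = f (D.φ e a))

@[simp] theorem lift_of (p : P) : D.lift f s h1 h2 (D.of p) = f p := by
  show Monoid.Coprod.lift f (FreeGroup.lift s) (Monoid.Coprod.inl p) = _
  simp

@[simp] theorem lift_t (e : E) : D.lift f s h1 h2 (D.t e) = s e := by
  show Monoid.Coprod.lift f (FreeGroup.lift s) (Monoid.Coprod.inr (FreeGroup.of e)) = _
  simp

end lift

theorem mem_of_gen (S : Subgroup D.F) (h1 : ∀ p, D.of p ∈ S) (h2 : ∀ e, D.t e ∈ S) (g : D.F) :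
    g ∈ S := by
  obtain ⟨x, rfl⟩ : ∃ x, D.mkF x = g := QuotientGroup.mk'_surjective _ g
  induction x using Monoid.Coprod.induction_on with
  | inl p => exact h1 p
  | inr w =>
    induction w using FreeGroup.induction_on with
    | C1 => rw [map_one, map_one]; exact S.one_mem
    | of e => exact h2 e
    | inv_of e _ => rw [map_inv, map_inv]; exact S.inv_mem (h2 e)
    | mul a b ha hb => rw [map_mul, map_mul]; exact S.mul_mem ha hb
  | mul a b ha hb => rw [map_mul]; exact S.mul_mem ha hb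

theorem hom_ext {H : Type*} [Group H] {f g : D.F →* H} (h1 : ∀ p, f (D.of p) = g (D.of p))
    (h2 : ∀ e, f (D.t e) = g (D.t e)) : f = g :=
  MonoidHom.ext fun x => D.mem_of_gen (f.eqLocus g) h1 h2 x

/-! ### normal forms -/

/-- representatives of the right cosets of `A e` -/
noncomputable def rep (e : E) : P → P := (exists_rep (D.A e)).choose

theorem rep_mem (e : E) (p : P) : p * (D.rep e p)⁻¹ ∈ D.A e := (exists_rep (D.A e)).choose_spec.1 p

theorem rep_mul (e : E) {a : P} (ha : a ∈ D.A e) (p : P) : D.rep e (a * p) = D.rep e p :=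
  (exists_rep (D.A e)).choose_spec.2.1 a ha p

theorem rep_eq_one (e : E) {p : P} : D.rep e p = 1 ↔ p ∈ D.A e :=
  ⟨fun h => by have := D.rep_mem e p; rwa [h, inv_one, mul_one] at this,
    (exists_rep (D.A e)).choose_spec.2.2 p⟩

theorem rep_rep (e : E) (p : P) : D.rep e (D.rep e p) = D.rep e p := by
  conv_rhs => rw [show p = (p * (D.rep e p)⁻¹) * D.rep e p by group, D.rep_mul e (D.rep_mem e p)]

theorem rep_eq_iff (e : E) {p q : P} : D.rep e p = D.rep e q ↔ p * q⁻¹ ∈ D.A e := by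
  constructor
  · intro h
    have := (D.A e).mul_mem (D.rep_mem e p) ((D.A e).inv_mem (D.rep_mem e q))
    rwa [h, show p * (D.rep e q)⁻¹ * (q * (D.rep e q)⁻¹)⁻¹ = p * q⁻¹ by group] at this
  · intro h
    rw [← D.rep_mul e h q, inv_mul_cancel_right]

/-- reduced lists; the letter `(e, r)` stands for `(t e)⁻¹ r` -/
def Red : List (E × P) → Prop
  | [] => True
  | c :: L => D.rep c.1 c.2 = c.2 ∧ (c.2 = 1 → ∀ c' ∈ L.head?, c'.1 ≠ D.bar c.1) ∧ Red L

open Classical in
/-- left multiplication by `(t e)⁻¹` -/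
noncomputable def TT (e : E) : P × List (E × P) → P × List (E × P)
  | (p, []) => (D.φ e (p * (D.rep e p)⁻¹), [(e, D.rep e p)])
  | (p, c :: L) => if p ∈ D.A e ∧ c.1 = D.bar e then (D.φ e p * c.2, L)
      else (D.φ e (p * (D.rep e p)⁻¹), (e, D.rep e p) :: c :: L)

theorem TT_push (e : E) (p : P) (L : List (E × P)) (h : p ∈ D.A e → ∀ c ∈ L.head?, c.1 ≠ D.bar e) :
    D.TT e (p, L) = (D.φ e (p * (D.rep e p)⁻¹), (e, D.rep e p) :: L) := by
  cases L with
  | nil => rfl
  | cons c L =>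
    rw [TT, if_neg]
    rintro ⟨h1, h2⟩
    exact h h1 c rfl h2

theorem TT_pop (e : E) {p : P} (hp : p ∈ D.A e) (r : P) (L : List (E × P)) :
    D.TT e (p, (D.bar e, r) :: L) = (D.φ e p * r, L) := by
  rw [TT, if_pos ⟨hp, rfl⟩]

theorem TT_cases (e : E) (p : P) (L : List (E × P)) :
    (p ∈ D.A e → ∀ c ∈ L.head?, c.1 ≠ D.bar e) ∨ (p ∈ D.A e ∧ ∃ r L', L = (D.bar e, r) :: L') := by
  by_cases h : p ∈ D.A e → ∀ c ∈ L.head?, c.1 ≠ D.bar e
  · exact Or.inl h
  · right
    push Not at h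
    obtain ⟨h1, c, hc, h2⟩ := h
    cases L with
    | nil => simp at hc
    | cons c' L =>
      obtain rfl : c' = c := by simpa using hc
      exact ⟨h1, c'.2, L, by rw [← h2]⟩

theorem TT_red (e : E) (x : P × List (E × P)) (hx : D.Red x.2) : D.Red (D.TT e x).2 := by
  obtain ⟨p, L⟩ := x
  rcases D.TT_cases e p L with h | ⟨h, r, L', rfl⟩
  · rw [D.TT_push e p L h]
    exact ⟨D.rep_rep e p, fun h1 => h ((D.rep_eq_one e).1 h1), hx⟩
  · rw [D.TT_pop e h]
    exact hx.2.2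

theorem TT_TT (e : E) (x : P × List (E × P)) (hx : D.Red x.2) : D.TT (D.bar e) (D.TT e x) = x := by
  obtain ⟨p, L⟩ := x
  rcases D.TT_cases e p L with h | ⟨h, r, L', rfl⟩
  · rw [D.TT_push e p L h]
    have := D.TT_pop (D.bar e) (D.φ_mem e _ (D.rep_mem e p)) (D.rep e p) L
    rw [D.bar_bar] at this
    rw [this, D.φ_φ e _ (D.rep_mem e p), inv_mul_cancel_right]
  · have h1 : D.rep (D.bar e) (D.φ e p * r) = r := by
      rw [D.rep_mul _ (D.φ_mem e p h)]; exact hx.1
    rw [D.TT_pop e h, D.TT_push, h1, mul_inv_cancel_right, D.φ_φ e p h]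
    intro h2
    exact hx.2.1 (h1.symm.trans ((D.rep_eq_one _).2 h2))

theorem TT_mul (e : E) {a : P} (ha : a ∈ D.A e) (p : P) (L : List (E × P)) :
    D.TT e (a * p, L) = (D.φ e a * (D.TT e (p, L)).1, (D.TT e (p, L)).2) := by
  rcases D.TT_cases e p L with h | ⟨h, r, L', rfl⟩
  · rw [D.TT_push e p L h, D.TT_push e (a * p) L
      (fun h1 => h (((D.A e).mul_mem_cancel_left ha).1 h1)), D.rep_mul e ha, mul_assoc,
      D.φ_mul e a ha _ (D.rep_mem e p)]
  · rw [D.TT_pop e h, D.TT_pop e ((D.A e).mul_mem ha h), D.φ_mul e a ha p h, mul_assoc]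

/-- normal forms -/
abbrev X : Type _ := {x : P × List (E × P) // D.Red x.2}

/-- `(t e)⁻¹` as a permutation of the normal forms -/
noncomputable def TP (e : E) : Equiv.Perm D.X where
  toFun x := ⟨D.TT e x.1, D.TT_red e x.1 x.2⟩
  invFun x := ⟨D.TT (D.bar e) x.1, D.TT_red _ x.1 x.2⟩
  left_inv x := Subtype.ext (D.TT_TT e x.1 x.2)
  right_inv x := Subtype.ext (by
    have := D.TT_TT (D.bar e) x.1 x.2
    rwa [D.bar_bar] at this)

/-- the base group acts on the head -/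
def OP : P →* Equiv.Perm D.X where
  toFun q :=
    { toFun := fun x => ⟨(q * x.1.1, x.1.2), x.2⟩
      invFun := fun x => ⟨(q⁻¹ * x.1.1, x.1.2), x.2⟩
      left_inv := fun x => Subtype.ext (by simp)
      right_inv := fun x => Subtype.ext (by simp) }
  map_one' := Equiv.ext fun x => Subtype.ext (by simp)
  map_mul' a b := Equiv.ext fun x => Subtype.ext (by simp [mul_assoc])

/-- the action on normal forms -/
noncomputable def act : D.F →* Equiv.Perm D.X :=
  D.lift D.OP (fun e => (D.TP e)⁻¹) (fun e => Equiv.ext fun x => Subtype.ext (by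
      show D.TT (D.bar (D.bar e)) x.1 = D.TT e x.1
      rw [D.bar_bar]))
    (fun e a ha => by
      rw [inv_inv, mul_inv_eq_iff_eq_mul]
      exact Equiv.ext fun x => Subtype.ext (D.TT_mul e ha x.1.1 x.1.2))

theorem act_of (q : P) (x : D.X) : (D.act (D.of q) x).1 = (q * x.1.1, x.1.2) := by
  unfold act; rw [lift_of]; rfl

theorem act_t_inv (e : E) (x : D.X) : (D.act (D.t e)⁻¹ x).1 = D.TT e x.1 := by
  rw [map_inv]; unfold act; rw [lift_t, inv_inv]; rfl

/-- the element of a list -/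
def prL : List (E × P) → D.F
  | [] => 1
  | c :: L => (D.t c.1)⁻¹ * D.of c.2 * prL L

/-- the element of a normal form -/
def pr (x : P × List (E × P)) : D.F := D.of x.1 * D.prL x.2

theorem pr_TT (e : E) (x : P × List (E × P)) : D.pr (D.TT e x) = (D.t e)⁻¹ * D.pr x := by
  obtain ⟨p, L⟩ := x
  rcases D.TT_cases e p L with h | ⟨h, r, L', rfl⟩
  · rw [D.TT_push e p L h]
    simp only [pr, prL]
    rw [← D.conj_of e (D.rep_mem e p), map_mul, map_inv]
    group
  · rw [D.TT_pop e h]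
    simp only [pr, prL]
    rw [map_mul, ← D.conj_of e h, t_bar]
    group

theorem pr_act (g : D.F) (x : D.X) : D.pr (D.act g x).1 = g * D.pr x.1 := by
  let S : Subgroup D.F :=
    { carrier := {g | ∀ x : D.X, D.pr (D.act g x).1 = g * D.pr x.1}
      mul_mem' := fun {a b} ha hb x => by
        rw [map_mul, Equiv.Perm.mul_apply, ha, hb, mul_assoc]
      one_mem' := fun x => by simp
      inv_mem' := fun {a} ha x => by
        have := ha (D.act a⁻¹ x)
        rw [← Equiv.Perm.mul_apply, ← map_mul, mul_inv_cancel, map_one, Equiv.Perm.one_apply] at this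
        rw [this, inv_mul_cancel_left] }
  refine D.mem_of_gen S (fun p x => ?_) (fun e => ?_) g x
  · rw [act_of]; simp only [pr, map_mul, mul_assoc]
  · rw [← S.inv_mem_iff]
    intro x
    rw [act_t_inv, pr_TT]

/-- the empty normal form -/
def x1 : D.X := ⟨(1, []), trivial⟩

/-- the normal form of an element -/
noncomputable def nf (g : D.F) : D.X := D.act g D.x1

theorem nf_mul (g h : D.F) : D.nf (g * h) = D.act g (D.nf h) := by
  unfold nf; rw [map_mul, Equiv.Perm.mul_apply]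

theorem pr_nf (g : D.F) : D.pr (D.nf g).1 = g := by
  unfold nf; rw [pr_act]; simp [pr, prL, x1]

theorem nf_one : D.nf 1 = D.x1 := by unfold nf; simp

theorem nf_of (p : P) : (D.nf (D.of p)).1 = (p, []) := by
  unfold nf; rw [act_of]; simp [x1]

theorem of_inj : Function.Injective D.of := fun p q h => by
  have := D.nf_of p
  rw [h, nf_of] at this
  exact (congrArg Prod.fst this).symm

theorem nf_prL : ∀ (L : List (E × P)), D.Red L → (D.nf (D.prL L)).1 = (1, L)
  | [], _ => by rw [prL, nf_one]; rfl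
  | c :: L, h => by
    rw [prL, mul_assoc, nf_mul, act_t_inv, nf_mul, act_of, nf_prL L h.2.2, mul_one, D.TT_push,
      h.1, mul_inv_cancel, φ_one]
    intro h1
    exact h.2.1 (h.1.symm.trans ((D.rep_eq_one _).2 h1))

theorem red_drop : ∀ (k : ℕ) (L : List (E × P)), D.Red L → D.Red (L.drop k)
  | 0, L, h => h
  | k + 1, [], h => trivial
  | k + 1, c :: L, h => red_drop k L h.2.2

/-! ### the tree -/

/-- vertices of the Bass–Serre tree -/
abbrev V := D.F ⧸ D.of.range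

/-- the base vertex -/
def x0 : D.V := ((1 : D.F) : D.V)

theorem smul_x0 (g : D.F) : g • D.x0 = (g : D.V) := by
  show ((g * 1 : D.F) : D.V) = _
  rw [mul_one]

theorem exists_smul (v : D.V) : ∃ g : D.F, v = g • D.x0 := by
  induction v using QuotientGroup.induction_on with
  | H g => exact ⟨g, (D.smul_x0 g).symm⟩

theorem smul_eq_iff {g h : D.F} : g • D.x0 = h • D.x0 ↔ ∃ p, h = g * D.of p := by
  rw [smul_x0, smul_x0, QuotientGroup.eq]
  exact ⟨fun ⟨p, hp⟩ => ⟨p, by rw [hp]; group⟩, fun ⟨p, hp⟩ => ⟨p, by rw [hp]; group⟩⟩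

theorem of_smul_x0 (p : P) : D.of p • D.x0 = D.x0 := by
  conv_rhs => rw [← one_smul D.F D.x0]
  exact (D.smul_eq_iff.2 ⟨p, by rw [one_mul]⟩).symm

theorem fix_x0 {g : D.F} : g • D.x0 = D.x0 ↔ ∃ p, g = D.of p := by
  conv_lhs => rw [eq_comm]; lhs; rw [← one_smul D.F D.x0]
  rw [smul_eq_iff]; simp

/-- the label of a vertex -/
noncomputable def lab (v : D.V) : List (E × P) :=
  Quotient.liftOn' v (fun g => (D.nf g⁻¹).1.2) (by
    intro g h hgh
    rw [QuotientGroup.leftRel_apply] at hgh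
    obtain ⟨k, hk⟩ := hgh
    have : g⁻¹ = D.of k * h⁻¹ := by rw [hk]; group
    simp only [this, nf_mul, act_of])

theorem lab_smul (g : D.F) : D.lab (g • D.x0) = (D.nf g⁻¹).1.2 := by rw [smul_x0]; rfl

theorem lab_inj : Function.Injective D.lab := by
  intro v w h
  obtain ⟨g, rfl⟩ := D.exists_smul v
  obtain ⟨g', rfl⟩ := D.exists_smul w
  rw [lab_smul, lab_smul] at h
  refine D.smul_eq_iff.2 ⟨(D.nf g⁻¹).1.1 * (D.nf g'⁻¹).1.1⁻¹, ?_⟩
  have e1 := D.pr_nf g⁻¹
  have e2 := D.pr_nf g'⁻¹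
  unfold pr at e1 e2
  rw [h] at e1
  rw [map_mul, map_inv, eq_mul_inv_of_mul_eq e1, eq_mul_inv_of_mul_eq e2]
  group

/-- the tree metric -/
noncomputable def d (v w : D.V) : ℕ := dl (D.lab v).reverse (D.lab w).reverse

theorem tm : TM D.d := by
  refine tm_list (fun v => (D.lab v).reverse) (List.reverse_injective.comp D.lab_inj) ?_
  intro v k
  obtain ⟨g, rfl⟩ := D.exists_smul v
  refine ⟨(D.prL ((D.lab (g • D.x0)).drop ((D.lab (g • D.x0)).length - k)))⁻¹ • D.x0, ?_⟩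
  rw [lab_smul, inv_inv, D.nf_prL, List.take_reverse]
  rw [lab_smul]
  exact D.red_drop _ _ (D.nf g⁻¹).2

theorem lab_step (g : D.F) (p : P) (e : E) : D.lab ((g * D.of p * D.t e) • D.x0) =
    (D.TT e (p⁻¹ * (D.nf g⁻¹).1.1, D.lab (g • D.x0))).2 := by
  rw [lab_smul, lab_smul, mul_inv_rev, mul_inv_rev, nf_mul, act_t_inv, nf_mul, ← map_inv, act_of]

theorem d_step (g : D.F) (p : P) (e : E) : D.d (g • D.x0) ((g * D.of p * D.t e) • D.x0) = 1 := by
  unfold d
  rw [lab_step]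
  rcases D.TT_cases e (p⁻¹ * (D.nf g⁻¹).1.1) (D.lab (g • D.x0)) with h | ⟨h, r, L', e1⟩
  · rw [D.TT_push _ _ _ h, List.reverse_cons, dl_concat]
  · rw [e1, D.TT_pop _ h, List.reverse_cons, dl_symm, dl_concat]

theorem lab_red (v : D.V) : D.Red (D.lab v) := by
  obtain ⟨g, rfl⟩ := D.exists_smul v
  rw [lab_smul]; exact (D.nf g⁻¹).2

theorem step_of_cons (g : D.F) {y : D.V} {c : E × P} (h : D.lab y = c :: D.lab (g • D.x0)) :
    ∃ p e, y = (g * D.of p * D.t e) • D.x0 := by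
  have hr := D.lab_red y
  rw [h] at hr
  refine ⟨(D.nf g⁻¹).1.1 * c.2⁻¹, c.1, D.lab_inj ?_⟩
  rw [lab_step, mul_inv_rev, inv_inv, inv_mul_cancel_right, D.TT_push, hr.1, h]
  intro h1
  exact hr.2.1 (hr.1.symm.trans ((D.rep_eq_one _).2 h1))

/-- neighbours of a vertex -/
theorem adj_iff (g : D.F) (y : D.V) :
    D.d (g • D.x0) y = 1 ↔ ∃ p e, y = (g * D.of p * D.t e) • D.x0 := by
  refine ⟨fun h => ?_, fun ⟨p, e, h⟩ => h ▸ D.d_step g p e⟩
  rcases dl_eq_one h with ⟨c, hc⟩ | ⟨c, hc⟩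
  · rw [← List.reverse_cons, List.reverse_inj] at hc
    exact D.step_of_cons g hc
  · rw [← List.reverse_cons, List.reverse_inj] at hc
    obtain ⟨k, rfl⟩ := D.exists_smul y
    obtain ⟨p, e, he⟩ := D.step_of_cons k hc
    obtain ⟨q, hq⟩ := D.smul_eq_iff.1 he
    refine ⟨q, D.bar e, D.smul_eq_iff.2 ⟨p, ?_⟩⟩
    rw [← hq, t_bar]; group

theorem iso : Iso D.F D.d := by
  refine iso_of_adj D.tm fun g x y h => ?_
  obtain ⟨k, rfl⟩ := D.exists_smul x
  obtain ⟨p, e, rfl⟩ := (D.adj_iff k y).1 h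
  rw [← mul_smul, ← mul_smul, ← mul_assoc, ← mul_assoc, d_step]

theorem lab_nb (p : P) (e : E) : D.lab ((D.of p * D.t e) • D.x0) = [(e, D.rep e p⁻¹)] := by
  have := D.lab_step 1 p e
  rw [one_mul, D.lab_smul 1, inv_one, nf_one] at this
  rw [this]
  simp [x1, TT]

/-- different edges at the base vertex -/
theorem nb_eq {p q : P} {e e' : E} : (D.of p * D.t e) • D.x0 = (D.of q * D.t e') • D.x0 ↔
    e = e' ∧ p⁻¹ * q ∈ D.A e := by
  rw [← D.lab_inj.eq_iff, lab_nb, lab_nb]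
  constructor
  · intro h
    simp only [List.cons.injEq, Prod.mk.injEq, and_true] at h
    obtain ⟨rfl, h⟩ := h
    rw [rep_eq_iff, inv_inv] at h
    exact ⟨rfl, h⟩
  · rintro ⟨rfl, h⟩
    rw [(D.rep_eq_iff e (p := p⁻¹) (q := q⁻¹)).2 (by rwa [inv_inv])]

theorem back_iff {p : P} {e e' : E} : (D.t e * D.of p * D.t e') • D.x0 = D.x0 ↔
    e' = D.bar e ∧ p ∈ D.A (D.bar e) := by
  rw [mul_assoc, mul_smul, smul_eq_iff_eq_inv_smul, ← t_bar, ← one_mul (D.t (D.bar e)),
    ← map_one D.of, nb_eq, mul_one, inv_mem_iff]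
  exact ⟨fun ⟨h1, h2⟩ => ⟨h1, h1 ▸ h2⟩, fun ⟨h1, h2⟩ => ⟨h1, h1 ▸ h2⟩⟩

theorem fix_nb {z p : P} {e : E} :
    D.of z • (D.of p * D.t e) • D.x0 = (D.of p * D.t e) • D.x0 ↔ p⁻¹ * z * p ∈ D.A e := by
  rw [eq_comm, ← mul_smul, ← mul_assoc, ← map_mul, nb_eq, mul_assoc]
  simp

theorem ni : NI D.F D.d := by
  intro g x y h h1 h2
  obtain ⟨k, rfl⟩ := D.exists_smul x
  obtain ⟨p, e, rfl⟩ := (D.adj_iff k y).1 h
  rw [← mul_smul, eq_comm, smul_eq_iff] at h1
  obtain ⟨q, hq⟩ := h1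
  have e1 : g * (k * D.of p * D.t e) = k * D.of p * (D.t e * D.of (q * p) * D.t e) := by
    rw [← mul_assoc, ← mul_assoc, hq, map_mul]; group
  have e2 : (k * D.of p) • D.x0 = k • D.x0 := by rw [mul_smul, of_smul_x0]
  rw [← mul_smul, e1, mul_smul, ← e2, smul_left_cancel_iff, back_iff] at h2
  exact D.bar_ne e h2.1.symm

end GG

end Crest.Agent.N233.Js
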