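import Crest.Agent.N233.Js.Ty

/-!
# Row 233, block Js: automorphisms induce isometries of the block tree; invariant characters
-/

set_option autoImplicit false
set_option linter.unusedVariables false
set_option linter.unusedSectionVars false

namespace Crest.Agent.N233.Js

open Crest.Agent.R179.BSL703 MulAction Multiplicative

theorem Ind.of_map {G H : Type*} [Group G] [Group H] (f : G →* H) (hf : Function.Injective f)
    {l m : G} (h : Ind (f l) (f m)) : Ind l m :=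
  ⟨hf (by rw [map_mul, map_mul]; exact h.1), fun a b e =>
    h.2 a b (by rw [← map_zpow, ← map_zpow, e])⟩

theorem Ind.conj {G : Type*} [Group G] {l m : G} (h : Ind l m) (c : G) :
    Ind (c⁻¹ * l * c) (c⁻¹ * m * c) := by
  have := h.map (MulAut.conj c⁻¹).toMonoidHom (MulAut.conj c⁻¹).injective
  simpa using this

theorem not_ind_zpowers {G : Type*} [Group G] {z a b : G} (ha : a ∈ Subgroup.zpowers z)
    (hb : b ∈ Subgroup.zpowers z) : ¬ Ind a b := by
  obtain ⟨i, rfl⟩ := ha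
  obtain ⟨j, rfl⟩ := hb
  intro h
  obtain ⟨rfl, rfl⟩ := h.2 j i (by simp only [← zpow_mul, mul_comm])
  exact h.ne_one (zpow_zero z)

namespace TG

variable {P : Type*} [Group P] {E ι : Type*} {D : TG P E ι}

/-- all the local conditions -/
structure Rig (D : TG P E ι) (Z : ι → Subgroup P) : Prop extends D.Loc Z where
  na : ∀ e, ¬ D.G (D.o e) ≤ D.A e
  blk : ∀ w, Blk (D.G w)
  zz : ∀ w, ∀ a ∈ Z w, ∀ a' ∈ Z w, ¬ Ind a a'
  ee : ∀ e, ∃ a ∈ D.A e, ∃ a' ∈ D.A e, Ind a a'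

/-- the type of a typed vertex -/
noncomputable def ty {b : ι} (x : D.S b) : ι := x.2.choose

theorem ty_eq {b w : ι} {γ : D.F} (h : D.Path b w γ) : ty (⟨_, w, γ, h, rfl⟩ : D.S b) = w := by
  obtain ⟨γ', h', e⟩ := (⟨_, w, γ, h, rfl⟩ : D.S b).2.choose_spec
  exact ((h.uniq h' e).1).symm

theorem ty_smul {b : ι} (g : D.L b) (x : D.S b) : ty (g • x) = ty x := by
  obtain ⟨_, w, γ, h, rfl⟩ := x
  rw [ty_eq h]
  exact (congrArg ty (Subtype.ext (mul_smul _ _ _).symm)).trans (ty_eq (Path.trans g.2 h))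

theorem Rig.adj_iff {Z : ι → Subgroup P} (H : D.Rig Z) {b : ι} (x y : D.S b) :
    D.dS b x y = 1 ↔ x ≠ y ∧ ∃ a a' : D.L b, Ind a a' ∧ a • x = x ∧ a • y = y ∧ a' • x = x ∧
      a' • y = y := by
  have T := D.tmS b
  have I := D.isoS b
  constructor
  · intro hd
    refine ⟨fun e => by rw [e, T.self] at hd; omega, ?_⟩
    obtain ⟨_, w, γ, h, rfl⟩ := x
    obtain ⟨p, hp, e, rfl, ey⟩ := h.nb y.2 hd
    obtain ⟨a, ha, a', ha', hi⟩ := H.ee e
    have hm : ∀ a ∈ D.A e, p * a * p⁻¹ ∈ D.G (D.o e) := fun a ha =>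
      (D.G _).mul_mem ((D.G _).mul_mem hp (D.A_le e ha)) ((D.G _).inv_mem hp)
    have hy : ∀ a (ha : a ∈ D.A e), h.emb ⟨_, hm a ha⟩ • y = y := fun a ha => Subtype.ext (by
      rw [coe_smul, ey]
      exact (fix_nb' γ).2 (by rwa [show p⁻¹ * (p * a * p⁻¹) * p = a by group]))
    refine ⟨h.emb ⟨_, hm a ha⟩, h.emb ⟨_, hm a' ha'⟩, Ind.map ?_ _ h.emb_inj,
      (h.emb_fix _).2 ⟨_, rfl⟩, hy a ha, (h.emb_fix _).2 ⟨_, rfl⟩, hy a' ha'⟩
    refine Ind.of_map (D.G _).subtype Subtype.val_injective ?_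
    simpa using hi.conj p⁻¹
  · rintro ⟨hne, a, a', hi, h1, h2, h3, h4⟩
    by_contra hd
    have h0 : D.dS b x y ≠ 0 := fun e => hne ((T.eq0 _ _).1 e)
    obtain ⟨x1, a1, a2⟩ := T.mid x y 1 (by omega)
    obtain ⟨x2, b1, b2⟩ := T.mid x1 y 1 (by omega)
    have t1 := T.tri x x1 x2
    have t2 := T.tri x x2 y
    have n1 : x ≠ x2 := by rintro rfl; omega
    have bx2 : D.dS b x x2 + D.dS b x2 y = D.dS b x y := by omega
    have bx1 : D.dS b x x1 + D.dS b x1 y = D.dS b x y := by omega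
    obtain ⟨_, w, γ, h, rfl⟩ := x1
    obtain ⟨p, hp, e, he, ex⟩ := h.nb x.2 ((D.tm.symm _ _).trans a1)
    obtain ⟨q, hq, e', rfl, ex2⟩ := h.nb x2.2 b1
    have key : ∀ g : D.L b, g • x = x → g • y = y → ∃ z : D.G (D.o e'), g = h.emb z ∧
        q⁻¹ * z * q ∈ Z (D.o e') := by
      intro g hx hy
      obtain ⟨z, rfl⟩ := (h.emb_fix g).1 (fix_mid T I hx hy bx1)
      refine ⟨z, rfl, ?_⟩
      have f0 := congrArg Subtype.val hx
      have f2 := congrArg Subtype.val (fix_mid T I hx hy bx2)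
      rw [coe_smul, ex] at f0
      rw [coe_smul, ex2] at f2
      replace f0 := (fix_nb' γ).1 f0
      replace f2 := (fix_nb' γ).1 f2
      rcases H.turn e' e (q⁻¹ * p) _ he ((D.G _).mul_mem ((D.G _).inv_mem hq) hp) f2
        (by rwa [show (q⁻¹ * p)⁻¹ * (q⁻¹ * z * q) * (q⁻¹ * p) = p⁻¹ * z * p by group]) with k | k
      · exact absurd (Subtype.ext (by rw [ex, ex2, eq_comm, nb_eq']; exact k)) n1
      · exact k
    obtain ⟨z, rfl, k1⟩ := key a h1 h2
    obtain ⟨z', rfl, k2⟩ := key a' h3 h4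
    exact H.zz _ _ k1 _ k2
      (((hi.of_map _ h.emb_inj).map (D.G _).subtype Subtype.val_injective).conj q)

/-- **an automorphism induces an equivariant isometry of the block tree**, and the vertex groups
of corresponding vertices are isomorphic -/
theorem Rig.theta {Z : ι → Subgroup P} (H : D.Rig Z) {b : ι} (θ : D.L b ≃* D.L b) :
    ∃ Θ : D.S b ≃ D.S b, (∀ x g, g • x = x ↔ θ g • Θ x = Θ x) ∧ (∀ g x, Θ (g • x) = θ g • Θ x) ∧
      (∀ x y, D.dS b (Θ x) (Θ y) = D.dS b x y) ∧ ∀ x, Nonempty (D.G (ty x) ≃* D.G (ty (Θ x))) := by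
  have ex : ∀ (θ : D.L b ≃* D.L b) (x : D.S b), ∃ y : D.S b, (∀ g, g • x = x ↔ θ g • y = y) ∧
      Nonempty (D.G (ty x) ≃* D.G (ty y)) := by
    rintro θ ⟨_, w, γ, h, rfl⟩
    obtain ⟨w', γ', h', ψ, hψ⟩ := H.toLoc.aut H.na H.blk h θ
    refine ⟨⟨_, w', γ', h', rfl⟩, fun g => ?_, by rw [ty_eq h, ty_eq h']; exact ⟨ψ⟩⟩
    rw [h.emb_fix, h'.emb_fix]
    constructor
    · rintro ⟨p, rfl⟩; exact ⟨ψ p, (hψ p).symm⟩
    · rintro ⟨p, hp⟩
      exact ⟨ψ.symm p, θ.injective (by rw [hψ, ← hp]; simp)⟩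
  choose f hf hty using ex
  have hne := stab_ne H.na b
  have hinv : ∀ (θ : D.L b ≃* D.L b) x, f θ.symm (f θ x) = x := fun θ x =>
    (hne _ _ fun g hg => by simpa using (hf θ.symm _ _).1 ((hf θ x g).1 hg)).symm
  have hadj : ∀ (θ : D.L b ≃* D.L b) x y, D.dS b x y = 1 → D.dS b (f θ x) (f θ y) ≤ 1 := by
    intro θ x y h
    obtain ⟨hne, a, a', hi, h1, h2, h3, h4⟩ := (H.adj_iff x y).1 h
    refine ((H.adj_iff _ _).2 ⟨fun e => hne ?_, θ a, θ a', hi.map θ.toMonoidHom θ.injective,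
      (hf θ _ _).1 h1, (hf θ _ _).1 h2, (hf θ _ _).1 h3, (hf θ _ _).1 h4⟩).le
    rw [← hinv θ x, e, hinv]
  refine ⟨⟨f θ, f θ.symm, hinv θ, hinv θ.symm⟩, fun x g => hf θ x g, fun g x => ?_,
    fun x y => ?_, hty θ⟩
  · refine hne _ _ fun k hk => ?_
    obtain ⟨k, rfl⟩ := θ.surjective k
    have h1 := (hf θ _ _).2 hk
    rw [← mul_smul, ← inv_smul_eq_iff, ← mul_smul] at h1
    have h2 := (hf θ _ _).1 h1
    rw [map_mul, map_mul, map_inv, mul_smul, inv_smul_eq_iff, mul_smul] at h2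
    exact h2
  · refine le_antisymm (le_of_adj (D.tmS b) _ (hadj θ) _ x y rfl) ?_
    have := le_of_adj (D.tmS b) _ (hadj θ.symm) _ (f θ x) (f θ y) rfl
    rwa [hinv, hinv] at this

section chi

variable (D) {M : Type*} [CommGroup M] (ω : E → M) (hω : ∀ e, ω (D.bar e) = (ω e)⁻¹)

/-- the character with weights `ω` on the edges -/
def chi : D.F →* M := D.lift 1 ω hω (fun e a _ => by simp)

theorem chi_of (p : P) : D.chi ω hω (D.of p) = 1 := by simp [chi]

theorem chi_t (e : E) : D.chi ω hω (D.t e) = ω e := by simp [chi]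

/-- the height function on the tree -/
def eta (v : D.V) : M := Quotient.liftOn' v (D.chi ω hω) (by
  intro g h hgh
  rw [QuotientGroup.leftRel_apply] at hgh
  obtain ⟨k, hk⟩ := hgh
  have : h = g * D.of k := by rw [hk]; group
  rw [this, map_mul, chi_of, mul_one])

theorem eta_x0 (g : D.F) : D.eta ω hω (g • D.x0) = D.chi ω hω g := by rw [D.smul_x0]; rfl

theorem eta_smul (g : D.F) (v : D.V) : D.eta ω hω (g • v) = D.chi ω hω g * D.eta ω hω v := by
  obtain ⟨k, rfl⟩ := D.exists_smul v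
  rw [← mul_smul, eta_x0, eta_x0, map_mul]

variable {D}

theorem eta_adj {κ : Type*} (c : ι → κ) (Ω : κ → κ → M)
    (hΩ : ∀ e, ω e = Ω (c (D.o e)) (c (D.o (D.bar e)))) {b : ι} {x y : D.S b}
    (h : D.dS b x y = 1) : D.eta ω hω y.1 = D.eta ω hω x.1 * Ω (c (ty x)) (c (ty y)) := by
  obtain ⟨_, w, γ, hγ, rfl⟩ := x
  obtain ⟨p, hp, e, rfl, ey⟩ := hγ.nb y.2 h
  have : y = ⟨_, _, _, hγ.step' hp rfl, rfl⟩ := Subtype.ext ey
  rw [this, ty_eq hγ, ty_eq (hγ.step' hp rfl), eta_x0, eta_x0, map_mul, map_mul, chi_of, chi_t,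
    mul_one, hΩ]

/-- **characters whose edge weights only depend on the isomorphism types of the end blocks are
invariant under all automorphisms** -/
theorem Rig.chi_aut {Z : ι → Subgroup P} (H : D.Rig Z) {κ : Type*} (c : ι → κ)
    (hc : ∀ w w', Nonempty (D.G w ≃* D.G w') → c w = c w') (Ω : κ → κ → M)
    (hΩ : ∀ e, ω e = Ω (c (D.o e)) (c (D.o (D.bar e)))) {b : ι} (θ : D.L b ≃* D.L b) (g : D.L b) :
    D.chi ω hω (θ g) = D.chi ω hω g := by
  obtain ⟨Θ, -, h1, h2, h3⟩ := H.theta θ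
  have T := D.tmS b
  have key : ∀ (n : ℕ) (x y : D.S b), D.dS b x y = n →
      D.eta ω hω (Θ y).1 * D.eta ω hω x.1 = D.eta ω hω y.1 * D.eta ω hω (Θ x).1 := by
    intro n
    induction n with
    | zero => intro x y h; rw [(T.eq0 _ _).1 h, mul_comm]
    | succ n ih =>
      intro x y h
      obtain ⟨z, a1, a2⟩ := T.mid x y n (by omega)
      have a3 : D.dS b z y = 1 := by omega
      rw [eta_adj ω hω c Ω hΩ a3, eta_adj ω hω c Ω hΩ ((h2 z y).trans a3), ← hc _ _ (h3 z),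
        ← hc _ _ (h3 y), mul_right_comm, ih x z a1, mul_right_comm]
  obtain ⟨x⟩ : Nonempty (D.S b) := inferInstance
  have := key _ x (g • x) rfl
  rw [h1, coe_smul, coe_smul, eta_smul, eta_smul, mul_assoc, mul_assoc,
    mul_comm (D.eta ω hω (Θ x).1)] at this
  exact mul_right_cancel this

end chi

end TG

end Crest.Agent.N233.Js
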