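import Mathlib
import Crest.Agent.R179.BSL_703

/-!
# Row 233, block Js: group actions on trees (integer tree metrics `TM` of R179)

Bounded orbits have fixed points, elliptic/hyperbolic dichotomy, axes, commuting elements,
commutators of elliptic elements, Helly for three elements.
-/

set_option autoImplicit false
set_option linter.unusedVariables false
set_option linter.unusedSectionVars false

namespace Crest.Agent.N233.Js

open Crest.Agent.R179.BSL703 MulAction

variable {V : Type*} {d : V → V → ℕ} {G : Type*} [Group G] [MulAction G V]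

/-- `g` fixes a vertex -/
def Ell (V : Type*) {G : Type*} [Group G] [MulAction G V] (g : G) : Prop := ∃ v : V, g • v = v

/-- no inversions -/
def NI (G : Type*) {V : Type*} [Group G] [MulAction G V] (d : V → V → ℕ) : Prop :=
  ∀ (g : G) (x y : V), d x y = 1 → g • x = y → g • y = x → False

/-- acylindricity: only the identity fixes two points at distance `> D` -/
def Acyl (G : Type*) {V : Type*} [Group G] [MulAction G V] (d : V → V → ℕ) (D : ℕ) : Prop :=
  ∀ (g : G) (x y : V), g • x = x → g • y = y → D < d x y → g = 1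

theorem not_hypb_of_ell {g : G} (h : Ell V g) : ¬ Hypb V g := by
  obtain ⟨v, hv⟩ := h
  exact fun hh => hh 1 one_ne_zero v (by rw [zpow_one]; exact hv)

theorem Ell.inv {g : G} (h : Ell V g) : Ell V g⁻¹ := by
  obtain ⟨v, hv⟩ := h
  exact ⟨v, by rw [inv_smul_eq_iff, hv]⟩

theorem Ell.conj {g : G} (h : Ell V g) (c : G) : Ell V (c * g * c⁻¹) := by
  obtain ⟨v, hv⟩ := h
  exact ⟨c • v, by rw [mul_smul, mul_smul, inv_smul_smul, hv]⟩

theorem exists_med (T : TM d) (x y z : V) :
    ∃ m, d x m + d m y = d x y ∧ d x m + d m z = d x z ∧ d y m + d m z = d y z := by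
  have p := T.parity x y z
  have t1 := T.tri y x z
  have t2 := T.tri x y z
  have s1 := T.symm x y
  obtain ⟨m, h1, h2⟩ := T.mid x y ((d x y + d x z - d y z) / 2) (by omega)
  have s2 := T.symm y m
  have s3 := T.symm z m
  have s4 := T.symm z y
  have t3 := T.tri x m z
  have t4 := T.tri y m z
  refine ⟨m, by omega, ?_, ?_⟩ <;> rcases T.between (x := x) (z := y) (w := m) (by omega) z with h | h <;>
    omega

/-- a subgroup with a bounded orbit fixes a vertex -/
theorem bdd_fix (T : TM d) (I : Iso G d) (N : NI G d) (H : Subgroup G) {v : V} {D : ℕ}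
    (hD : ∀ h ∈ H, d v (h • v) ≤ D) : ∃ w : V, ∀ h ∈ H, h • w = w := by
  classical
  have hex : ∃ n, ∃ w : V, ∀ h ∈ H, d w (h • v) ≤ n := ⟨D, v, hD⟩
  obtain ⟨w, hw⟩ := Nat.find_spec hex
  set n := Nat.find hex with hn
  have hmin : ∀ m < n, ¬ ∃ w : V, ∀ h ∈ H, d w (h • v) ≤ m := fun m hm => Nat.find_min hex hm
  have cen : ∀ a b : V, (∀ h ∈ H, d a (h • v) ≤ n) → (∀ h ∈ H, d b (h • v) ≤ n) → d a b ≤ 1 := by
    intro a b ha hb
    by_contra hab
    obtain ⟨y, hy1, hy2⟩ := T.mid a b 1 (by omega)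
    have hn0 : 0 < n := by
      by_contra h0
      have e1 := ha 1 H.one_mem
      have e2 := hb 1 H.one_mem
      have := T.tri a ((1 : G) • v) b
      have := T.symm b ((1 : G) • v)
      omega
    refine hmin (n - 1) (by omega) ⟨y, fun h hh => ?_⟩
    have e1 := ha h hh
    have e2 := hb h hh
    have := T.symm (h • v) y
    have := T.symm (h • v) b
    rcases T.between (x := a) (z := b) (w := y) (by omega) (h • v) with e | e <;> omega
  have tr : ∀ g ∈ H, ∀ a : V, (∀ h ∈ H, d a (h • v) ≤ n) → ∀ h ∈ H, d (g • a) (h • v) ≤ n := by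
    intro g hg a ha h hh
    have := ha (g⁻¹ * h) (H.mul_mem (H.inv_mem hg) hh)
    rw [← I g, mul_smul, smul_inv_smul] at this
    exact this
  refine ⟨w, fun g hg => ?_⟩
  by_contra hne
  have c1 := cen w (g • w) hw (tr g hg w hw)
  have c2 := cen w (g • g • w) hw (tr g hg _ (tr g hg w hw))
  have c3 : d (g • w) (g • g • w) = d w (g • w) := I g _ _
  have c4 : d w (g • w) ≠ 0 := fun h => hne ((T.eq0 _ _).1 h).symm
  have c5 := T.parity w (g • w) (g • g • w)
  have c6 : d w (g • g • w) = 0 := by omega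
  exact N g w (g • w) (by omega) rfl ((T.eq0 _ _).1 c6).symm

theorem ell_or_hypb (T : TM d) (I : Iso G d) (N : NI G d) (g : G) : Ell V g ∨ Hypb V g := by
  by_cases h : Hypb V g
  · exact Or.inr h
  left
  unfold Hypb at h
  push Not at h
  obtain ⟨k, hk, v, hv⟩ := h
  obtain ⟨w, hw⟩ := bdd_fix T I N (Subgroup.zpowers g) (v := v)
    (D := (Finset.range k.natAbs).sup fun i => d v (g ^ i • v)) (by
      rintro _ ⟨j, rfl⟩
      have e : g ^ j = g ^ (j % k).toNat * (g ^ k) ^ (j / k) := by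
        rw [← zpow_natCast, Int.toNat_of_nonneg (Int.emod_nonneg _ hk), ← zpow_mul, ← zpow_add]
        congr 1
        have := Int.emod_add_mul_ediv j k
        omega
      have e2 : (g ^ k) ^ (j / k) • v = v := (stabilizer G v).zpow_mem hv _
      simp only
      rw [e, mul_smul, e2]
      refine Finset.le_sup (f := fun i => d v (g ^ i • v)) ?_
      rw [Finset.mem_range]
      have := Int.emod_lt_abs j hk
      have := Int.emod_nonneg j hk
      rw [Int.abs_eq_natAbs] at *
      omega)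
  exact ⟨w, hw g (Subgroup.mem_zpowers g)⟩

/-- an elliptic element fixes a point of `[y, b y]` -/
theorem mid_fix (T : TM d) (I : Iso G d) {b : G} (hb : Ell V b) (y : V) :
    ∃ m, b • m = m ∧ d y m + d m (b • y) = d y (b • y) := by
  classical
  have hex : ∃ n, ∃ p : V, b • p = p ∧ d p y = n := by
    obtain ⟨p, hp⟩ := hb
    exact ⟨_, p, hp, rfl⟩
  obtain ⟨p, hp, hpn⟩ := Nat.find_spec hex
  have hmin : ∀ p' : V, b • p' = p' → d p y ≤ d p' y := fun p' hp' => by
    rw [hpn]; exact Nat.find_min' hex ⟨p', hp', rfl⟩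
  refine ⟨p, hp, ?_⟩
  have e1 : d p (b • y) = d p y := by
    conv_lhs => rw [← hp]
    exact I b p y
  have t1 := T.tri y p (b • y)
  have s1 := T.symm y p
  by_contra hcon
  have hpos : 0 < d p y := by omega
  obtain ⟨u, hu1, hu2⟩ := T.mid p y 1 hpos
  have e2 := T.first (w := p) (u := y) (v := b • y) (y := u) hu1 hu2 (by omega)
  have e3 : d p (b • u) = 1 := by
    conv_lhs => rw [← hp]
    rw [I, hu1]
  have e4 : u = b • u := by
    refine T.uniq (x := p) (z := b • y) (by rw [hu1, e2]) ?_ (by rw [hu1, e3])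
    rw [e3, I, e1, hu2]
  have := hmin u e4.symm
  omega

/-- elliptic elements with an elliptic commutator have a common fixed point -/
theorem fix_of_comm (T : TM d) (I : Iso G d) {a b : G} (ha : Ell V a) (hb : Ell V b)
    (hab : Ell V (a * b * a⁻¹ * b⁻¹)) : ∃ v : V, a • v = v ∧ b • v = v := by
  by_contra hcon
  push Not at hcon
  obtain ⟨p, hp⟩ := ha
  have hq : (b * a⁻¹ * b⁻¹) • (b • p) = b • p := by
    rw [mul_smul, mul_smul, inv_smul_smul, inv_smul_eq_iff.2 hp.symm]
  have := hypb_mul T I hp hq (fun v h1 h2 => by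
    rw [mul_smul, mul_smul, ← eq_inv_smul_iff, inv_smul_eq_iff] at h2
    obtain ⟨m, hm1, hm2⟩ := mid_fix T I hb (b⁻¹ • v)
    rw [smul_inv_smul] at hm2
    exact hcon m (fix_mid T I h2.symm h1 hm2) hm1)
  refine not_hypb_of_ell hab ?_
  simpa only [mul_assoc] using this

theorem helly3 (T : TM d) (I : Iso G d) {a b c : G} {x y z : V} (h1 : a • x = x) (h2 : b • x = x)
    (h3 : b • y = y) (h4 : c • y = y) (h5 : c • z = z) (h6 : a • z = z) :
    ∃ v : V, a • v = v ∧ b • v = v ∧ c • v = v := by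
  obtain ⟨m, m1, m2, m3⟩ := exists_med T x y z
  exact ⟨m, fix_mid T I h1 h6 m2, fix_mid T I h2 h3 m1, fix_mid T I h4 h5 m3⟩

/-- an elliptic element commuting with a hyperbolic one is trivial -/
theorem eq_one_of_comm (T : TM d) (I : Iso G d) {D : ℕ} (A : Acyl G d D) {c γ : G}
    (hγ : Hypb V γ) (hc : Ell V c) (h : Commute c γ) : c = 1 := by
  obtain ⟨v, hv⟩ := hc
  have : Nonempty V := ⟨v⟩
  obtain ⟨x, L, hL, hx⟩ := exists_axis T I hγ
  refine A c v (γ ^ (D + 2 * d x v + 1) • v) hv ?_ ?_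
  · rw [← mul_smul, (h.pow_right _).eq, mul_smul, hv]
  · have e := hx (D + 2 * d x v + 1)
    have t1 := T.tri x v (γ ^ (D + 2 * d x v + 1) • x)
    have t2 := T.tri v (γ ^ (D + 2 * d x v + 1) • v) (γ ^ (D + 2 * d x v + 1) • x)
    rw [I, T.symm v x] at t2
    have : (D + 2 * d x v + 1) * 1 ≤ (D + 2 * d x v + 1) * L := Nat.mul_le_mul_left _ hL
    omega

theorem seg_chain (T : TM d) (I : Iso G d) {γ : G} {x y : V} {L : ℕ}
    (hx : ∀ k : ℕ, d x (γ ^ k • x) = k * L) (i : ℤ) : ∀ n : ℕ,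
    d (γ ^ i • x) y + d y (γ ^ (i + (n + 1 : ℕ)) • x) = (n + 1) * L →
      ∃ j : ℤ, d (γ ^ j • x) y + d y (γ ^ (j + 1) • x) = L := by
  have ax := axis_dist T I hx
  intro n
  induction n with
  | zero => intro h; exact ⟨i, by simpa using h⟩
  | succ n ih =>
    intro h
    have a1 := ax i (i + (n + 1 + 1 : ℕ))
    have a2 := ax i (i + (n + 1 : ℕ))
    have a3 := ax (i + (n + 1 : ℕ)) (i + (n + 1 + 1 : ℕ))
    rw [show (i + (n + 1 + 1 : ℕ) - i).natAbs = n + 1 + 1 by omega] at a1
    rw [show (i + (n + 1 : ℕ) - i).natAbs = n + 1 by omega] at a2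
    rw [show (i + (n + 1 + 1 : ℕ) - (i + (n + 1 : ℕ))).natAbs = 1 by omega, one_mul] at a3
    rcases T.between (h.trans a1.symm) (γ ^ (i + (n + 1 : ℕ)) • x) with e | e
    · exact ih (e.trans a2)
    · refine ⟨i + (n + 1 : ℕ), ?_⟩
      rw [show i + (n + 1 : ℕ) + 1 = i + (n + 1 + 1 : ℕ) by omega, e, a3]

/-- a point of minimal displacement lies between two far points of the axis -/
theorem on_axis0 (T : TM d) (I : Iso G d) {γ : G} {x y : V} {L : ℕ} (hL : 0 < L)
    (hx : ∀ k : ℕ, d x (γ ^ k • x) = k * L) (hy : d y (γ • y) = L) :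
    ∃ K : ℕ, d (γ ^ (-(K + 1 : ℕ) : ℤ) • x) y + d y (γ ^ ((K + 1 : ℕ) : ℤ) • x) = (2 * K + 2) * L := by
  have ax := axis_dist T I hx
  refine ⟨d x y + 1, ?_⟩
  set K : ℕ := d x y + 1 with hK
  set p := γ ^ (-(K + 1 : ℕ) : ℤ) • x with hp
  set q := γ ^ ((K + 1 : ℕ) : ℤ) • x with hq
  have hp' : γ • p = γ ^ (-(K : ℤ)) • x := by
    rw [hp, ← mul_smul, ← zpow_one_add, show (1 : ℤ) + (-((K + 1 : ℕ) : ℤ)) = -(K : ℤ) by omega]
  have hq' : γ • q = γ ^ ((K + 2 : ℕ) : ℤ) • x := by
    rw [hq, ← mul_smul, ← zpow_one_add, show (1 : ℤ) + ((K + 1 : ℕ) : ℤ) = ((K + 2 : ℕ) : ℤ) by omega]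
  have hx0 : x = γ ^ (0 : ℤ) • x := by simp
  have a1 : d p q = (2 * K + 2) * L := by
    rw [hp, hq, ax]; congr 1; omega
  have a2 : d p (γ • p) = L := by
    rw [hp', hp, ax, show (-(K : ℤ) - -((K + 1 : ℕ) : ℤ)).natAbs = 1 by omega, one_mul]
  have a3 : d (γ • p) q = (2 * K + 1) * L := by
    rw [hp', hq, ax]; congr 1; omega
  have a4 : d q (γ • q) = L := by
    rw [hq', hq, ax, show (((K + 2 : ℕ) : ℤ) - ((K + 1 : ℕ) : ℤ)).natAbs = 1 by omega, one_mul]
  have a5 : d (γ • p) (γ • q) = (2 * K + 2) * L := by rw [I, a1]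
  have a6 : d x q = (K + 1) * L := by
    conv_lhs => rw [hx0]
    rw [hq, ax]; congr 1
  have a7 : d p x = (K + 1) * L := by
    conv_lhs => rw [hx0]
    rw [hp, ax]; congr 1; omega
  have m1 : K ≤ K * L := Nat.le_mul_of_pos_right _ hL
  have r1 : (2 * K + 2) * L = 2 * (K * L) + 2 * L := by ring
  have r2 : (2 * K + 1) * L = 2 * (K * L) + L := by ring
  have r3 : (K + 1) * L = K * L + L := by ring
  have b1 : d (γ • y) (γ • p) = d y p := I γ _ _
  have b2 : d (γ • y) (γ • q) = d y q := I γ _ _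
  have t1 := T.tri y x q
  have t2 := T.tri p x y
  have t3 := T.tri p y q
  have s1 := T.symm x y
  have s2 := T.symm y p
  have s3 := T.symm (γ • y) (γ • p)
  have s4 := T.symm (γ • p) y
  have s5 := T.symm q (γ • y)
  have s6 := T.symm q (γ • p)
  have c1 : d p (γ • p) + d (γ • p) y = d p y := by
    rcases T.between (x := p) (z := q) (w := γ • p) (by omega) y with e | e
    · exact e
    · omega
  have c2 : d (γ • y) q + d q (γ • q) = d (γ • y) (γ • q) := by
    rcases T.between (x := γ • p) (z := γ • q) (w := q) (by omega) (γ • y) with e | e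
    · omega
    · exact e
  have f := T.four y q (γ • y) (γ • p)
  omega

/-- points with `d y (γ^k y) = k L` lie on the axis -/
theorem on_axis (T : TM d) (I : Iso G d) {γ : G} {x y : V} {L k : ℕ} (hL : 0 < L) (hk : 0 < k)
    (hx : ∀ k : ℕ, d x (γ ^ k • x) = k * L) (hy : d y (γ ^ k • y) = k * L) :
    ∃ j : ℤ, d (γ ^ j • x) y + d y (γ ^ (j + 1) • x) = L := by
  obtain ⟨K, hK⟩ := on_axis0 T I (γ := γ ^ k) (x := x) (L := k * L) (Nat.mul_pos hk hL)
    (fun m => by rw [← pow_mul, hx]; ring) hy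
  rw [← zpow_natCast, ← zpow_mul, ← zpow_mul] at hK
  obtain ⟨n, hn⟩ : ∃ n, (2 * K + 2) * k = n + 1 :=
    ⟨(2 * K + 2) * k - 1, by have := Nat.mul_pos (show 0 < 2 * K + 2 by omega) hk; omega⟩
  refine seg_chain T I hx ((k : ℤ) * (-(K + 1 : ℕ) : ℤ)) n ?_
  rw [← hn, show (k : ℤ) * (-(K + 1 : ℕ) : ℤ) + (((2 * K + 2) * k : ℕ) : ℤ)
    = (k : ℤ) * ((K + 1 : ℕ) : ℤ) by push_cast; ring, hK]
  ring

/-- an element commuting with a hyperbolic element is commensurable with it -/
theorem pow_eq_of_comm (T : TM d) (I : Iso G d) [Nonempty V] {D : ℕ} (A : Acyl G d D) {c γ : G}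
    (hγ : Hypb V γ) (h : Commute c γ) : ∃ (b : ℕ) (a : ℤ), 0 < b ∧ c ^ b = γ ^ a := by
  obtain ⟨x, L, hL, hx⟩ := exists_axis T I hγ
  have h1 : ∀ b : ℕ, ∃ j : ℤ, d (γ ^ j • x) (c ^ b • x) + d (c ^ b • x) (γ ^ (j + 1) • x) = L := by
    intro b
    refine on_axis T I hL Nat.one_pos hx ?_
    rw [← mul_smul, ← ((h.pow_left b).pow_right 1).eq, mul_smul, I, hx]
  choose j hj using h1
  have h2 : ∀ b : ℕ, d x (γ ^ (-j b) • c ^ b • x) + d (γ ^ (-j b) • c ^ b • x) (γ • x) = L := by
    intro b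
    have e := hj b
    rw [← I (γ ^ (-j b)), ← I (γ ^ (-j b)) (c ^ b • x), ← mul_smul _ (γ ^ j b),
      ← mul_smul _ (γ ^ (j b + 1)), ← zpow_add, ← zpow_add, neg_add_cancel, zpow_zero, one_smul,
      show -j b + (j b + 1) = 1 by ring, zpow_one] at e
    exact e
  have hL1 : d x (γ • x) = L := by simpa using hx 1
  obtain ⟨b, b', hne, he⟩ := Finite.exists_ne_map_eq_of_infinite
    (fun b : ℕ => (⟨d x (γ ^ (-j b) • c ^ b • x), by have := h2 b; omega⟩ : Fin (L + 1)))
  have key : ∀ b b' : ℕ, b < b' → γ ^ (-j b) • c ^ b • x = γ ^ (-j b') • c ^ b' • x →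
      ∃ (b : ℕ) (a : ℤ), 0 < b ∧ c ^ b = γ ^ a := by
    intro b b' hlt e
    obtain ⟨n, rfl⟩ := Nat.exists_eq_add_of_lt hlt
    refine ⟨n + 1, j (b + n + 1) - j b, by omega, ?_⟩
    have e1 : (γ ^ (j b - j (b + n + 1)) * c ^ (n + 1)) • c ^ b • x = c ^ b • x := by
      rw [mul_smul, ← mul_smul (c ^ (n + 1)), ← pow_add, show n + 1 + b = b + n + 1 by ring,
        sub_eq_add_neg, zpow_add, mul_smul, ← e, ← mul_smul, ← zpow_add, add_neg_cancel, zpow_zero,
        one_smul]
    have e2 := eq_one_of_comm T I A hγ ⟨_, e1⟩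
      (((Commute.refl γ).zpow_left _).mul_left (h.pow_left _))
    rw [mul_eq_one_iff_eq_inv', ← zpow_neg] at e2
    rw [e2]; congr 1; ring
  have he' : γ ^ (-j b) • c ^ b • x = γ ^ (-j b') • c ^ b' • x :=
    T.uniq ((h2 b).trans hL1.symm) ((h2 b').trans hL1.symm) (congrArg Fin.val he)
  rcases lt_or_gt_of_ne hne with hlt | hlt
  · exact key _ _ hlt he'
  · exact key _ _ hlt he'.symm

/-- two commuting independent elements: both are elliptic -/
theorem ell_of_z2 (T : TM d) (I : Iso G d) (N : NI G d) [Nonempty V] {D : ℕ} (A : Acyl G d D)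
    {m l : G} (h : Commute l m) (hind : ∀ (b : ℕ) (a : ℤ), 0 < b → l ^ b ≠ m ^ a) : Ell V m := by
  rcases ell_or_hypb T I N m with h1 | h1
  · exact h1
  · obtain ⟨b, a, hb, e⟩ := pow_eq_of_comm T I A h1 h
    exact absurd e (hind b a hb)

/-- the centraliser of a nontrivial elliptic element fixes a vertex -/
theorem fix_of_central (T : TM d) (I : Iso G d) (N : NI G d) {D : ℕ} (A : Acyl G d D)
    {z : G} (hz : Ell V z) (hz1 : z ≠ 1) (H : Subgroup G) (hH : ∀ h ∈ H, Commute h z) :
    ∃ w : V, ∀ h ∈ H, h • w = w := by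
  obtain ⟨v, hv⟩ := hz
  refine bdd_fix T I N H (v := v) (D := D) fun h hh => ?_
  by_contra hcon
  refine hz1 (A z v (h • v) hv ?_ (by omega))
  rw [← mul_smul, ← (hH h hh).eq, mul_smul, hv]

/-- a convex subset of a tree is a tree -/
theorem tm_sub (T : TM d) (S : Set V)
    (hS : ∀ x ∈ S, ∀ y ∈ S, ∀ z, d x z + d z y = d x y → z ∈ S) :
    TM (fun a b : S => d a b) where
  eq0 x y := by rw [T.eq0, Subtype.ext_iff]
  symm x y := T.symm _ _
  tri x y z := T.tri _ _ _
  mid x y n hn := by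
    obtain ⟨z, h1, h2⟩ := T.mid x y n hn
    exact ⟨⟨z, hS _ x.2 _ y.2 z (by omega)⟩, h1, h2⟩
  four x y z w := T.four _ _ _ _
  parity x y z := T.parity _ _ _

/-- maps that preserve adjacency do not increase distances -/
theorem le_of_adj (T : TM d) (f : V → V) (hf : ∀ x y, d x y = 1 → d (f x) (f y) ≤ 1) :
    ∀ (n : ℕ) (x y : V), d x y = n → d (f x) (f y) ≤ n := by
  intro n
  induction n with
  | zero =>
    intro x y h
    rw [(T.eq0 _ _).1 h, T.self]
  | succ n ih =>
    intro x y h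
    obtain ⟨z, h1, h2⟩ := T.mid x y n (by omega)
    have := ih x z h1
    have := hf z y (by omega)
    have := T.tri (f x) (f z) (f y)
    omega

theorem iso_of_adj (T : TM d) (h : ∀ (g : G) (x y : V), d x y = 1 → d (g • x) (g • y) ≤ 1) :
    Iso G d := by
  intro g x y
  refine le_antisymm (le_of_adj T _ (h g) _ x y rfl) ?_
  have := le_of_adj T _ (h g⁻¹) _ (g • x) (g • y) rfl
  simpa using this

/-- three consecutive edges at the start of a segment -/
theorem three_steps (T : TM d) {x y : V} (h : 2 < d x y) : ∃ x1 x2 x3 : V,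
    d x x1 = 1 ∧ d x1 x2 = 1 ∧ d x2 x3 = 1 ∧ x ≠ x2 ∧ x1 ≠ x3 ∧
      d x x1 + d x1 y = d x y ∧ d x x2 + d x2 y = d x y ∧ d x x3 + d x3 y = d x y := by
  obtain ⟨x1, a1, a2⟩ := T.mid x y 1 (by omega)
  obtain ⟨x2, b1, b2⟩ := T.mid x1 y 1 (by omega)
  obtain ⟨x3, c1, c2⟩ := T.mid x2 y 1 (by omega)
  have t1 := T.tri x x1 x2
  have t2 := T.tri x x2 y
  have t3 := T.tri x x2 x3
  have t4 := T.tri x x3 y
  refine ⟨x1, x2, x3, a1, b1, c1, ?_, ?_, by omega, by omega, by omega⟩
  · rintro rfl; omega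
  · rintro rfl; omega

/-! ### the prefix tree of lists -/

section lists

variable {α : Type*}

open Classical in
/-- length of the longest common prefix -/
noncomputable def lcp : List α → List α → ℕ
  | a :: l, b :: m => if a = b then lcp l m + 1 else 0
  | _, _ => 0

theorem le_lcp : ∀ (k : ℕ) (x y : List α),
    k ≤ lcp x y ↔ k ≤ x.length ∧ k ≤ y.length ∧ x.take k = y.take k
  | 0, x, y => by simp
  | k + 1, [], y => by simp [lcp]
  | k + 1, a :: l, [] => by simp [lcp]
  | k + 1, a :: l, b :: m => by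
    by_cases h : a = b
    · simp [lcp, h, le_lcp k l m]
    · simp [lcp, h]

theorem lcp_le (x y : List α) : lcp x y ≤ x.length ∧ lcp x y ≤ y.length :=
  ⟨((le_lcp _ x y).1 le_rfl).1, ((le_lcp _ x y).1 le_rfl).2.1⟩

theorem lcp_symm (x y : List α) : lcp x y = lcp y x := by
  refine eq_of_forall_le_iff fun k => ?_
  rw [le_lcp, le_lcp]
  exact ⟨fun h => ⟨h.2.1, h.1, h.2.2.symm⟩, fun h => ⟨h.2.1, h.1, h.2.2.symm⟩⟩

theorem lcp_ultra (x y z : List α) : min (lcp x y) (lcp y z) ≤ lcp x z := by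
  have h1 := (le_lcp _ x y).1 (min_le_left (lcp x y) (lcp y z))
  have h2 := (le_lcp _ y z).1 (min_le_right (lcp x y) (lcp y z))
  exact (le_lcp _ x z).2 ⟨h1.1, h2.2.1, h1.2.2.trans h2.2.2⟩

theorem lcp_take (x y : List α) (k : ℕ) : lcp (x.take k) y = min k (lcp x y) := by
  refine eq_of_forall_le_iff fun j => ?_
  rw [le_lcp, le_min_iff, le_lcp, List.length_take, le_min_iff, List.take_take]
  constructor
  · rintro ⟨⟨h1, h2⟩, h3, h4⟩
    rw [min_eq_left h1] at h4
    exact ⟨h1, h2, h3, h4⟩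
  · rintro ⟨h1, h2, h3, h4⟩
    rw [min_eq_left h1]
    exact ⟨⟨h1, h2⟩, h3, h4⟩

theorem lcp_self (x : List α) : lcp x x = x.length :=
  le_antisymm (lcp_le x x).1 ((le_lcp _ x x).2 ⟨le_rfl, le_rfl, rfl⟩)

/-- distance in the prefix tree -/
noncomputable def dl (x y : List α) : ℕ := x.length + y.length - 2 * lcp x y

theorem dl_eq_zero {x y : List α} : dl x y = 0 ↔ x = y := by
  constructor
  · intro h
    have h1 := lcp_le x y
    unfold dl at h
    have h2 := (le_lcp x.length x y).1 (by omega)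
    have h3 : y.length = x.length := by omega
    have := h2.2.2
    rwa [List.take_length, ← h3, List.take_length] at this
  · rintro rfl
    unfold dl
    rw [lcp_self]; omega

theorem dl_concat (x : List α) (a : α) : dl x (x ++ [a]) = 1 := by
  have h1 := lcp_le x (x ++ [a])
  have h2 := (le_lcp x.length x (x ++ [a])).2 ⟨le_rfl, by simp, by simp⟩
  unfold dl
  rw [List.length_append, List.length_singleton]
  omega

theorem dl_symm (x y : List α) : dl x y = dl y x := by
  unfold dl; rw [lcp_symm, add_comm]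

theorem dl_eq_one {x y : List α} (h : dl x y = 1) : (∃ a, y = x ++ [a]) ∨ ∃ a, x = y ++ [a] := by
  have key : ∀ x y : List α, lcp x y = x.length → y.length = x.length + 1 → ∃ a, y = x ++ [a] := by
    intro x y h1 h2
    have h3 := ((le_lcp x.length x y).1 h1.ge).2.2
    rw [List.take_length] at h3
    refine ⟨y[x.length], ?_⟩
    conv_lhs => rw [← List.take_length (l := y), h2, List.take_add_one, ← h3]
    simp [List.getElem?_eq_getElem (show x.length < y.length by omega)]
  have h1 := lcp_le x y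
  unfold dl at h
  by_cases h2 : x.length ≤ y.length
  · exact Or.inl (key x y (by omega) (by omega))
  · exact Or.inr (key y x (by rw [lcp_symm]; omega) (by omega))

theorem tm_list (f : V → List α) (hf : Function.Injective f)
    (hc : ∀ v k, ∃ w, f w = (f v).take k) : TM (fun v w => dl (f v) (f w)) where
  eq0 x y := by rw [dl_eq_zero, hf.eq_iff]
  symm x y := dl_symm _ _
  tri x y z := by
    have := lcp_ultra (f x) (f y) (f z)
    have := lcp_le (f x) (f y)
    have := lcp_le (f y) (f z)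
    have := lcp_le (f x) (f z)
    unfold dl
    omega
  mid x y n hn := by
    have h1 := lcp_le (f x) (f y)
    unfold dl at hn
    by_cases h : n + lcp (f x) (f y) ≤ (f x).length
    · obtain ⟨w, hw⟩ := hc x ((f x).length - n)
      refine ⟨w, ?_⟩
      simp only [dl, hw]
      rw [lcp_symm (f x) (List.take _ _), lcp_take, lcp_take, lcp_self, List.length_take]
      omega
    · obtain ⟨w, hw⟩ := hc y (n + 2 * lcp (f x) (f y) - (f x).length)
      refine ⟨w, ?_⟩
      simp only [dl, hw]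
      rw [lcp_symm (f x) (List.take _ _), lcp_take, lcp_take, lcp_self, List.length_take,
        lcp_symm (f y) (f x)]
      omega
  four x y z w := by
    have := lcp_ultra (f x) (f y) (f z)
    have := lcp_ultra (f x) (f y) (f w)
    have := lcp_ultra (f x) (f z) (f y)
    have := lcp_ultra (f x) (f w) (f y)
    have := lcp_ultra (f z) (f x) (f w)
    have := lcp_ultra (f z) (f y) (f w)
    have := lcp_symm (f z) (f x)
    have := lcp_symm (f z) (f y)
    have := lcp_symm (f w) (f y)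
    have := lcp_le (f x) (f y)
    have := lcp_le (f x) (f z)
    have := lcp_le (f x) (f w)
    have := lcp_le (f y) (f z)
    have := lcp_le (f y) (f w)
    have := lcp_le (f z) (f w)
    simp only [dl]
    omega
  parity x y z := by
    have := lcp_le (f x) (f y)
    have := lcp_le (f y) (f z)
    have := lcp_le (f x) (f z)
    simp only [dl]
    omega

end lists

end Crest.Agent.N233.Js
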