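import Crest.Agent.N233.Js.Mh

/-!
# Row 233, block Js: graphs of groups (typed paths), the two-tree argument

`D : TG P E ι`: a multiple HNN datum with vertex types `o e : ι` and vertex groups `G w ≤ P`.
`D.L b` is the group of typed loops at `b` (the fundamental group of the graph of groups); it acts
on the typed subtree `D.S b`.
-/

set_option autoImplicit false
set_option linter.unusedVariables false
set_option linter.unusedSectionVars false

namespace Crest.Agent.N233.Js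

open Crest.Agent.R179.BSL703 MulAction

section two

variable {V : Type*} {d : V → V → ℕ} {G : Type*} [Group G] [MulAction G V]

/-- two commuting elements without common powers -/
def Ind {G : Type*} [Group G] (l m : G) : Prop :=
  Commute l m ∧ ∀ a b : ℤ, l ^ a = m ^ b → a = 0 ∧ b = 0

theorem Ind.symm {l m : G} (h : Ind l m) : Ind m l :=
  ⟨h.1.symm, fun a b e => (h.2 b a e.symm).symm⟩

theorem Ind.map {l m : G} (h : Ind l m) {H : Type*} [Group H] (f : G →* H)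
    (hf : Function.Injective f) : Ind (f l) (f m) :=
  ⟨h.1.map f, fun a b e => h.2 a b (hf (by rwa [map_zpow, map_zpow]))⟩

theorem Ind.ne_one {l m : G} (h : Ind l m) : m ≠ 1 := fun e =>
  one_ne_zero (h.2 0 1 (by rw [e]; simp)).2

theorem Ind.ell (T : TM d) (I : Iso G d) (N : NI G d) [Nonempty V] {D : ℕ} (A : Acyl G d D)
    {l m : G} (h : Ind l m) : Ell V m :=
  ell_of_z2 T I N A h.1 fun b a hb e => by
    have := (h.2 b a (by rwa [zpow_natCast])).1
    omega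

/-- Seifert blocks are elliptic -/
theorem fix_S (T : TM d) (I : Iso G d) (N : NI G d) [Nonempty V] {D : ℕ} (A : Acyl G d D)
    {s z : G} (h : Ind s z) (H : Subgroup G) (hH : ∀ h ∈ H, Commute h z) :
    ∃ w : V, ∀ h ∈ H, h • w = w :=
  fix_of_central T I N A (h.ell T I N A) h.ne_one H hH

/-- the longitudes of the Borromean rings -/
def lon {G : Type*} [Group G] (m : Fin 3 → G) (i : Fin 3) : G :=
  (m (i + 2))⁻¹ * m (i + 1) * m (i + 2) * (m (i + 1))⁻¹

theorem map_lon {H : Type*} [Group H] (f : G →* H) (m : Fin 3 → G) (i : Fin 3) :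
    f (lon m i) = lon (fun j => f (m j)) i := by
  simp [lon]

/-- Borromean blocks are elliptic -/
theorem fix_B (T : TM d) (I : Iso G d) (N : NI G d) [Nonempty V] {D : ℕ} (A : Acyl G d D)
    {m : Fin 3 → G} (h : ∀ i, Ind (lon m i) (m i)) : ∃ w : V, ∀ i, m i • w = w := by
  have key : ∀ i, ∃ v : V, m (i + 2) • v = v ∧ m (i + 1) • v = v := fun i => by
    obtain ⟨v, h1, h2⟩ := fix_of_comm T I ((h (i + 2)).ell T I N A).inv ((h (i + 1)).ell T I N A)
      (by rw [inv_inv]; exact (h i).symm.ell T I N A)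
    exact ⟨v, by rw [inv_smul_eq_iff] at h1; exact h1.symm, h2⟩
  obtain ⟨x, x1, x2⟩ := key 2
  obtain ⟨y, y1, y2⟩ := key 0
  obtain ⟨z, z1, z2⟩ := key 1
  obtain ⟨v, h0, h1, h2⟩ := helly3 T I (a := m 0) (b := m 1) (c := m 2) x2 x1 y2 y1 z2 z1
  refine ⟨v, fun i => ?_⟩
  fin_cases i
  exacts [h0, h1, h2]

/-- **two-tree argument** -/
theorem two_tree (hell : ∀ (θ : G ≃* G) (x : V), ∃ y : V, ∀ g : G, g • x = x → θ g • y = y)
    (hne : ∀ x y : V, (∀ g : G, g • x = x → g • y = y) → x = y) (θ : G ≃* G) (x : V) :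
    ∃ y : V, ∀ g : G, g • x = x ↔ θ g • y = y := by
  obtain ⟨y, hy⟩ := hell θ x
  obtain ⟨x', hx'⟩ := hell θ.symm y
  have : x = x' := hne x x' fun g hg => by simpa using hx' _ (hy g hg)
  subst this
  exact ⟨y, fun g => ⟨hy g, fun h => by simpa using hx' _ h⟩⟩

end two

/-- a graph of groups inside one ambient group -/
structure TG (P : Type*) [Group P] (E ι : Type*) extends GG P E where
  o : E → ι
  G : ι → Subgroup P
  A_le : ∀ e, A e ≤ G (o e)

namespace TG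

variable {P : Type*} [Group P] {E ι : Type*} (D : TG P E ι)

/-- typed paths -/
inductive Path (b : ι) : ι → D.F → Prop
  | nil : Path b b 1
  | mul {w : ι} {γ : D.F} {p : P} : Path b w γ → p ∈ D.G w → Path b w (γ * D.of p)
  | step {γ : D.F} (e : E) : Path b (D.o e) γ → Path b (D.o (D.bar e)) (γ * D.t e)

variable {D}

theorem Path.trans {a b c : ι} {γ δ : D.F} (h1 : D.Path a b γ) (h2 : D.Path b c δ) :
    D.Path a c (γ * δ) := by
  induction h2 with
  | nil => rwa [mul_one]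
  | mul _ hp ih => rw [← mul_assoc]; exact ih.mul hp
  | step e _ ih => rw [← mul_assoc]; exact ih.step e

theorem path_of {w : ι} {p : P} (hp : p ∈ D.G w) : D.Path w w (D.of p) := by
  have := (Path.nil (D := D) (b := w)).mul hp
  rwa [one_mul] at this

theorem path_t (e : E) : D.Path (D.o e) (D.o (D.bar e)) (D.t e) := by
  have := (Path.nil (D := D) (b := D.o e)).step e
  rwa [one_mul] at this

theorem Path.inv {a b : ι} {γ : D.F} (h : D.Path a b γ) : D.Path b a γ⁻¹ := by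
  induction h with
  | nil => rw [inv_one]; exact Path.nil
  | mul _ hp ih =>
    rw [mul_inv_rev, ← map_inv]
    exact (path_of ((D.G _).inv_mem hp)).trans ih
  | step e _ ih =>
    rw [mul_inv_rev, ← D.t_bar]
    have := path_t (D := D) (D.bar e)
    rw [D.bar_bar] at this
    exact this.trans ih

theorem Path.step' {b w : ι} {γ : D.F} (h : D.Path b w γ) {p : P} (hp : p ∈ D.G w) {e : E}
    (he : D.o e = w) : D.Path b (D.o (D.bar e)) (γ * D.of p * D.t e) := by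
  subst he
  exact (h.mul hp).step e

variable (D)

/-- the group of typed loops -/
def L (b : ι) : Subgroup D.F where
  carrier := {γ | D.Path b b γ}
  mul_mem' := Path.trans
  one_mem' := Path.nil
  inv_mem' := Path.inv

/-- typed lists -/
def TyL (b : ι) : List (E × P) → ι → Prop
  | [], w => w = b
  | c :: L, w => w = D.o (D.bar c.1) ∧ c.2 ∈ D.G (D.o c.1) ∧ TyL b L (D.o c.1)

variable {D}

theorem TyL.uniq {b w w' : ι} : ∀ {L : List (E × P)}, D.TyL b L w → D.TyL b L w' → w = w'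
  | [], h, h' => h.trans h'.symm
  | c :: L, h, h' => h.1.trans h'.1.symm

theorem Path.ty {b w : ι} {γ : D.F} (h : D.Path b w γ) :
    D.TyL b (D.nf γ⁻¹).1.2 w ∧ (D.nf γ⁻¹).1.1 ∈ D.G w := by
  induction h with
  | nil => rw [inv_one, D.nf_one]; exact ⟨rfl, (D.G _).one_mem⟩
  | mul _ hp ih =>
    rw [mul_inv_rev, D.nf_mul, ← map_inv, D.act_of]
    exact ⟨ih.1, (D.G _).mul_mem ((D.G _).inv_mem hp) ih.2⟩
  | @step γ e _ ih =>
    rw [mul_inv_rev, D.nf_mul, D.act_t_inv]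
    generalize (D.nf γ⁻¹).1 = x at ih ⊢
    obtain ⟨p, L⟩ := x
    rcases D.TT_cases e p L with h | ⟨h, r, L', rfl⟩
    · rw [D.TT_push e p L h]
      refine ⟨⟨rfl, ?_, ih.1⟩, D.A_le _ (D.φ_mem e _ (D.rep_mem e p))⟩
      have := (D.G _).mul_mem ((D.G _).inv_mem (D.A_le e (D.rep_mem e p))) ih.2
      simpa using this
    · rw [D.TT_pop e h]
      exact ⟨ih.1.2.2, (D.G _).mul_mem (D.A_le _ (D.φ_mem e p h)) ih.1.2.1⟩

theorem Path.uniq {b w w' : ι} {γ γ' : D.F} (h : D.Path b w γ) (h' : D.Path b w' γ')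
    (e : γ • D.x0 = γ' • D.x0) : w = w' ∧ ∃ p ∈ D.G w, γ' = γ * D.of p := by
  have e1 := congrArg D.lab e
  rw [D.lab_smul, D.lab_smul] at e1
  have t1 := h.ty
  have t2 := h'.ty
  rw [← e1] at t2
  obtain rfl : w = w' := t1.1.uniq t2.1
  obtain ⟨p, rfl⟩ := D.smul_eq_iff.1 e
  refine ⟨rfl, p, ?_, rfl⟩
  rw [mul_inv_rev, D.nf_mul, ← map_inv, D.act_of] at t2
  have := (D.G w).mul_mem t1.2 ((D.G w).inv_mem t2.2)
  simpa using this

variable (D)

/-- the typed subtree -/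
def S (b : ι) : Set D.V := {v | ∃ w γ, D.Path b w γ ∧ v = γ • D.x0}

variable {D}

theorem Path.conv0 {b w : ι} {γ : D.F} (h : D.Path b w γ) : ∀ z : D.V,
    D.d D.x0 z + D.d z (γ • D.x0) = D.d D.x0 (γ • D.x0) → z ∈ D.S b := by
  induction h with
  | nil =>
    intro z hz
    rw [one_smul, D.tm.self] at hz
    exact ⟨b, 1, Path.nil, by rw [one_smul]; exact ((D.tm.eq0 _ _).1 (by omega)).symm⟩
  | mul _ hp ih => rw [mul_smul, D.of_smul_x0]; exact ih
  | @step γ e h ih =>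
    intro z hz
    rcases D.tm.between hz (γ • D.x0) with h1 | h1
    · exact ih z h1
    · have h2 := D.d_step γ 1 e
      rw [map_one, mul_one] at h2
      by_cases h3 : D.d (γ • D.x0) z = 0
      · exact ⟨_, γ, h, ((D.tm.eq0 _ _).1 h3).symm⟩
      · exact ⟨_, _, h.step e, (D.tm.eq0 _ _).1 (by omega)⟩

theorem S_conv (b : ι) : ∀ x ∈ D.S b, ∀ y ∈ D.S b, ∀ z, D.d x z + D.d z y = D.d x y → z ∈ D.S b := by
  rintro _ ⟨w, γ, h, rfl⟩ _ ⟨w', γ', h', rfl⟩ z hz
  rcases D.tm.between hz D.x0 with h1 | h1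
  · refine h.conv0 z ?_
    rw [D.tm.symm D.x0 z, D.tm.symm z (γ • _), D.tm.symm D.x0]
    omega
  · exact h'.conv0 z h1

theorem step_cons {b w : ι} {γ : D.F} (h : D.Path b w γ) {y : D.V} (hy : y ∈ D.S b) {c : E × P}
    (hc : D.lab y = c :: D.lab (γ • D.x0)) :
    ∃ p ∈ D.G w, ∃ e, D.o e = w ∧ y = (γ * D.of p * D.t e) • D.x0 := by
  have hr := D.lab_red y
  rw [hc] at hr
  obtain ⟨w', γ', h', rfl⟩ := hy
  have t1 := h.ty
  have t2 := h'.ty.1
  rw [← D.lab_smul, hc, D.lab_smul] at t2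
  obtain rfl : w = D.o c.1 := t1.1.uniq t2.2.2
  refine ⟨(D.nf γ⁻¹).1.1 * c.2⁻¹, (D.G _).mul_mem t1.2 ((D.G _).inv_mem t2.2.1), c.1, rfl,
    D.lab_inj ?_⟩
  rw [D.lab_step, mul_inv_rev, inv_inv, inv_mul_cancel_right, D.TT_push, hr.1, hc]
  intro h1
  exact hr.2.1 (hr.1.symm.trans ((D.rep_eq_one _).2 h1))

/-- neighbours in the typed subtree -/
theorem Path.nb {b w : ι} {γ : D.F} (h : D.Path b w γ) {y : D.V} (hy : y ∈ D.S b)
    (hd : D.d (γ • D.x0) y = 1) :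
    ∃ p ∈ D.G w, ∃ e, D.o e = w ∧ y = (γ * D.of p * D.t e) • D.x0 := by
  rcases dl_eq_one hd with ⟨c, hc⟩ | ⟨c, hc⟩
  · rw [← List.reverse_cons, List.reverse_inj] at hc
    exact step_cons h hy hc
  · rw [← List.reverse_cons, List.reverse_inj] at hc
    obtain ⟨w', γ', h', rfl⟩ := hy
    obtain ⟨p, hp, e, he, e1⟩ := step_cons h' ⟨w, γ, h, rfl⟩ hc
    obtain ⟨e2, q, hq, e3⟩ := h.uniq (h'.step' hp he) e1
    refine ⟨q, hq, D.bar e, e2.symm, D.smul_eq_iff.2 ⟨p, ?_⟩⟩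
    rw [← e3, D.t_bar]; group

theorem fix_nb' (γ : D.F) {z p : P} {e : E} :
    (γ * D.of z * γ⁻¹) • (γ * D.of p * D.t e) • D.x0 = (γ * D.of p * D.t e) • D.x0 ↔
      p⁻¹ * z * p ∈ D.A e := by
  rw [← D.fix_nb, mul_assoc γ (D.of p), mul_smul γ, mul_smul, inv_smul_smul, mul_smul,
    smul_left_cancel_iff]

theorem nb_eq' (γ : D.F) {p q : P} {e e' : E} :
    (γ * D.of p * D.t e) • D.x0 = (γ * D.of q * D.t e') • D.x0 ↔ e = e' ∧ p⁻¹ * q ∈ D.A e := by
  rw [← D.nb_eq, mul_assoc γ, mul_assoc γ, mul_smul γ, mul_smul γ, smul_left_cancel_iff]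

/-- stabilisers of typed vertices -/
theorem Path.stab {b w : ι} {γ : D.F} (h : D.Path b w γ) {g : D.F} (hg : g ∈ D.L b) :
    g • γ • D.x0 = γ • D.x0 ↔ ∃ p ∈ D.G w, g = γ * D.of p * γ⁻¹ := by
  constructor
  · intro e
    obtain ⟨-, p, hp, e1⟩ := h.uniq (Path.trans hg h) (by rw [mul_smul, e])
    exact ⟨p, hp, by rw [← e1]; group⟩
  · rintro ⟨p, hp, rfl⟩
    rw [mul_smul, inv_smul_smul, mul_smul, D.of_smul_x0]

theorem Path.conj_mem {b w : ι} {γ : D.F} (h : D.Path b w γ) {p : P} (hp : p ∈ D.G w) :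
    γ * D.of p * γ⁻¹ ∈ D.L b :=
  (h.mul hp).trans h.inv

instance (b : ι) : MulAction (D.L b) (D.S b) where
  smul g v := ⟨(g : D.F) • (v : D.V), by
    obtain ⟨w, γ, h, e⟩ := v.2
    exact ⟨w, g * γ, Path.trans g.2 h, by rw [e, mul_smul]⟩⟩
  one_smul v := Subtype.ext (one_smul D.F v.1)
  mul_smul a c v := Subtype.ext (mul_smul (a : D.F) (c : D.F) v.1)

theorem coe_smul {b : ι} (g : D.L b) (v : D.S b) :
    ((g • v : D.S b) : D.V) = (g : D.F) • (v : D.V) := rfl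

instance (b : ι) : Nonempty (D.S b) := ⟨⟨_, b, 1, Path.nil, rfl⟩⟩

variable (D)

/-- the metric of the typed subtree -/
noncomputable def dS (b : ι) (x y : D.S b) : ℕ := D.d x y

theorem tmS (b : ι) : TM (D.dS b) := tm_sub D.tm _ (S_conv b)

theorem isoS (b : ι) : Iso (D.L b) (D.dS b) := fun g x y => D.iso (g : D.F) x.1 y.1

theorem niS (b : ι) : NI (D.L b) (D.dS b) := fun g x y h h1 h2 =>
  D.ni (g : D.F) x.1 y.1 h (congrArg Subtype.val h1) (congrArg Subtype.val h2)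

/-- the local conditions for acylindricity -/
structure Loc (Z : ι → Subgroup P) : Prop where
  turn : ∀ e e' p a, D.o e' = D.o e → p ∈ D.G (D.o e) → a ∈ D.A e → p⁻¹ * a * p ∈ D.A e' →
    (e = e' ∧ p ∈ D.A e) ∨ a ∈ Z (D.o e)
  edge : ∀ e, ∀ a ∈ D.A e, a ∈ Z (D.o e) → D.φ e a ∈ Z (D.o (D.bar e)) → a = 1

variable {D}

theorem Loc.acyl {Z : ι → Subgroup P} (H : D.Loc Z) (b : ι) : Acyl (D.L b) (D.dS b) 2 := by
  intro g x y hx hy hd
  obtain ⟨x1, x2, x3, d1, d2, d3, n1, n2, b1, b2, b3⟩ := three_steps (D.tmS b) hd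
  have f1 := congrArg Subtype.val (fix_mid (D.tmS b) (D.isoS b) hx hy b1)
  have f2 := congrArg Subtype.val (fix_mid (D.tmS b) (D.isoS b) hx hy b2)
  have f3 := congrArg Subtype.val (fix_mid (D.tmS b) (D.isoS b) hx hy b3)
  have f0 := congrArg Subtype.val hx
  rw [coe_smul] at f0 f1 f2 f3
  obtain ⟨x1, w, γ, h, rfl⟩ := x1
  obtain ⟨z, hz, eg⟩ := (h.stab g.2).1 f1
  obtain ⟨p, hp, e, he, ex⟩ := h.nb x.2 ((D.tm.symm _ _).trans d1)
  obtain ⟨q, hq, e', rfl, ex2⟩ := h.nb x2.2 d2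
  rw [eg, ex, fix_nb'] at f0
  rw [eg, ex2, fix_nb'] at f2
  have h2 := h.step' hq rfl
  obtain ⟨r, hr, e'', he'', ex3⟩ := h2.nb x3.2 (by rw [← ex2]; exact d3)
  have eg2 : (g : D.F) = (γ * D.of q * D.t e') * D.of (D.φ e' (q⁻¹ * z * q)) *
      (γ * D.of q * D.t e')⁻¹ := by
    rw [eg, ← D.conj_of e' f2, map_mul, map_mul, map_inv]; group
  rw [eg2, ex3, fix_nb'] at f3
  have k1 : q⁻¹ * z * q ∈ Z (D.o e') := by
    rcases H.turn e' e (q⁻¹ * p) _ he ((D.G _).mul_mem ((D.G _).inv_mem hq) hp) f2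
      (by rwa [show (q⁻¹ * p)⁻¹ * (q⁻¹ * z * q) * (q⁻¹ * p) = p⁻¹ * z * p by group]) with k | k
    · exact absurd (Subtype.ext (by rw [ex, ex2, eq_comm, nb_eq']; exact k)) n1
    · exact k
  have k2 : D.φ e' (q⁻¹ * z * q) ∈ Z (D.o (D.bar e')) := by
    rcases H.turn (D.bar e') e'' r _ he'' hr (D.φ_mem e' _ f2) f3 with k | k
    · refine absurd (Subtype.ext ?_) n2
      have : γ • D.x0 = (γ * D.of q * D.t e' * D.of 1 * D.t (D.bar e')) • D.x0 := by
        rw [map_one, mul_one, D.t_bar, mul_inv_cancel_right, mul_smul, D.of_smul_x0]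
      rw [ex3]
      refine this.trans ?_
      rw [nb_eq']
      simpa using k
    · exact k
  have k3 := H.edge e' _ f2 k1 k2
  refine Subtype.ext ?_
  rw [eg2, k3, D.φ_one]
  simp

/-- stabilisers are incomparable when no vertex group is conjugate into an edge group -/
theorem stab_ne (hna : ∀ e, ¬ D.G (D.o e) ≤ D.A e) (b : ι) (x y : D.S b)
    (h : ∀ g : D.L b, g • x = x → g • y = y) : x = y := by
  by_contra hne
  have hpos : 1 ≤ D.dS b x y := by
    have := (D.tmS b).eq0 x y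
    by_contra h0
    exact hne (this.1 (by omega))
  obtain ⟨z, h1, h2⟩ := (D.tmS b).mid x y 1 hpos
  obtain ⟨x, w, γ, hγ, rfl⟩ := x
  obtain ⟨p, hp, e, rfl, ez⟩ := hγ.nb z.2 h1
  refine hna e fun a ha => ?_
  have hq : p * a * p⁻¹ ∈ D.G (D.o e) :=
    (D.G _).mul_mem ((D.G _).mul_mem hp ha) ((D.G _).inv_mem hp)
  have f1 : (⟨_, hγ.conj_mem hq⟩ : D.L b) • (⟨_, _, γ, hγ, rfl⟩ : D.S b) = ⟨_, _, γ, hγ, rfl⟩ :=
    Subtype.ext ((hγ.stab (hγ.conj_mem hq)).2 ⟨_, hq, rfl⟩)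
  have f2 := congrArg Subtype.val (fix_mid (D.tmS b) (D.isoS b) f1 (h _ f1) (y := z) (by omega))
  rw [coe_smul, ez, fix_nb'] at f2
  rwa [show p⁻¹ * (p * a * p⁻¹) * p = a by group] at f2

/-- the vertex group at the end of a path, inside the loop group -/
def Path.emb {b w : ι} {γ : D.F} (h : D.Path b w γ) : D.G w →* D.L b where
  toFun p := ⟨γ * D.of p * γ⁻¹, h.conj_mem p.2⟩
  map_one' := Subtype.ext (by simp)
  map_mul' p q := Subtype.ext (by simp [mul_assoc])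

theorem Path.emb_inj {b w : ι} {γ : D.F} (h : D.Path b w γ) : Function.Injective h.emb := by
  intro p q e
  have := congrArg Subtype.val e
  exact Subtype.ext (D.of_inj (by simpa [Path.emb] using this))

theorem Path.emb_fix {b w : ι} {γ : D.F} (h : D.Path b w γ) (g : D.L b) :
    g • (⟨_, w, γ, h, rfl⟩ : D.S b) = ⟨_, w, γ, h, rfl⟩ ↔ g ∈ h.emb.range := by
  rw [Subtype.ext_iff, coe_smul, h.stab g.2]
  exact ⟨fun ⟨p, hp, e⟩ => ⟨⟨p, hp⟩, Subtype.ext e.symm⟩,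
    fun ⟨p, e⟩ => ⟨p.1, p.2, (congrArg Subtype.val e).symm⟩⟩

/-- block types -/
def Blk (K : Type*) [Group K] : Prop :=
  (∃ s z : K, Ind s z ∧ ∀ h, Commute h z) ∨
    ∃ m : Fin 3 → K, (∀ i, Ind (lon m i) (m i)) ∧ Subgroup.closure (Set.range m) = ⊤

/-- **automorphisms permute the vertex groups** -/
theorem Loc.aut {Z : ι → Subgroup P} (H : D.Loc Z) (hna : ∀ e, ¬ D.G (D.o e) ≤ D.A e)
    (hB : ∀ w, Blk (D.G w)) {b w : ι} {γ : D.F} (h : D.Path b w γ) (θ : D.L b ≃* D.L b) :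
    ∃ (w' : ι) (γ' : D.F) (h' : D.Path b w' γ') (ψ : D.G w ≃* D.G w'),
      ∀ p, θ (h.emb p) = h'.emb (ψ p) := by
  have T := D.tmS b
  have I := D.isoS b
  have N := D.niS b
  have A := H.acyl b
  obtain ⟨⟨_, w', γ', h', rfl⟩, hy⟩ := two_tree (V := D.S b) (G := D.L b) (fun θ x => by
    obtain ⟨_, w, γ, h, rfl⟩ := x
    let f : D.G w →* D.L b := θ.toMonoidHom.comp h.emb
    have hf : Function.Injective f := θ.injective.comp h.emb_inj
    suffices ∃ y : D.S b, ∀ p, f p • y = y by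
      obtain ⟨y, hy⟩ := this
      refine ⟨y, fun g hg => ?_⟩
      obtain ⟨p, rfl⟩ := (h.emb_fix g).1 hg
      exact hy p
    rcases hB w with ⟨s, z, h1, h2⟩ | ⟨m, h1, h2⟩
    · obtain ⟨y, hy⟩ := fix_S T I N A (h1.map f hf) f.range (by
        rintro _ ⟨p, rfl⟩; exact (h2 p).map f)
      exact ⟨y, fun p => hy _ ⟨p, rfl⟩⟩
    · obtain ⟨y, hy⟩ := fix_B T I N A (m := fun j => f (m j)) (fun i => by
        rw [← map_lon]; exact (h1 i).map f hf)
      refine ⟨y, fun p => ?_⟩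
      have : Subgroup.closure (Set.range m) ≤ (stabilizer (D.L b) y).comap f := by
        rw [Subgroup.closure_le]
        rintro _ ⟨i, rfl⟩
        exact hy i
      exact this (h2 ▸ Subgroup.mem_top p)) (stab_ne hna b) θ ⟨_, w, γ, h, rfl⟩
  replace hy : ∀ g, g ∈ h.emb.range ↔ θ g ∈ h'.emb.range := fun g =>
    (h.emb_fix g).symm.trans ((hy g).trans (h'.emb_fix _))
  have e : h.emb.range.map θ.toMonoidHom = h'.emb.range := by
    ext g
    constructor
    · rintro ⟨g', hg', rfl⟩; exact (hy g').1 hg'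
    · intro hg
      exact ⟨θ.symm g, (hy _).2 (by simpa using hg), by simp⟩
  refine ⟨w', γ', h', (MonoidHom.ofInjective h.emb_inj).trans ((θ.subgroupMap _).trans
    ((MulEquiv.subgroupCongr e).trans (MonoidHom.ofInjective h'.emb_inj).symm)), fun p => ?_⟩
  exact (MonoidHom.apply_ofInjective_symm h'.emb_inj ⟨θ (h.emb p), (hy _).1 ⟨p, rfl⟩⟩).symm

/-- **the marked fibre is preserved up to conjugacy and inversion** -/
theorem Loc.fibre {Z : ι → Subgroup P} (H : D.Loc Z) (hna : ∀ e, ¬ D.G (D.o e) ≤ D.A e)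
    (hB : ∀ w, Blk (D.G w)) {b w : ι} {γ : D.F} (h : D.Path b w γ)
    (hU : ∀ w', Nonempty (D.G w ≃* D.G w') → w' = w) (z : D.G w)
    (hC : ∀ ψ : D.G w ≃* D.G w, ψ z = z ∨ ψ z = z⁻¹) (θ : D.L b ≃* D.L b) :
    IsConj (h.emb z) (θ (h.emb z)) ∨ IsConj (h.emb z)⁻¹ (θ (h.emb z)) := by
  obtain ⟨w', γ', h', ψ, hψ⟩ := H.aut hna hB h θ
  obtain rfl := hU w' ⟨ψ⟩
  have key : ∀ p, IsConj (h.emb p) (h'.emb p) := fun p =>
    isConj_iff.2 ⟨⟨γ' * γ⁻¹, h'.trans h.inv⟩, Subtype.ext (by simp [Path.emb, mul_assoc])⟩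
  rw [hψ]
  rcases hC ψ with e | e
  · rw [e]; exact Or.inl (key z)
  · rw [e, ← map_inv]; exact Or.inr (key _)

end TG

end Crest.Agent.N233.Js
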